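import Vale.Agent.P022.H472.L3.NS2

/-!
# The sharp form of the nilpotence order of Nicolas and Serre: the operator `T₅`
-/

namespace Vale.Agent.P022.H472.NS

theorem step5_even {w : ℕ → ℕ → ZMod 2} (hw : Rec5 w) (i M : ℕ) (hM : M < 4 ^ (i + 2))
    (IH : ∀ K < M + 4 ^ (i + 2), C5 w K) : C5 w (M + 4 ^ (i + 2)) := by
  have hp : 0 < 4 ^ i := by positivity
  have hq : 0 < 2 ^ i := by positivity
  have e4 : 4 ^ (i + 1) = 4 * 4 ^ i := pow_succ' 4 i
  have e4' : 4 ^ (i + 2) = 16 * 4 ^ i := by rw [pow_add]; ring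
  have e2 : 2 ^ (i + 1) = 2 * 2 ^ i := pow_succ' 2 i
  have e2' : 2 ^ (i + 2) = 4 * 2 ^ i := by rw [pow_add]; ring
  obtain ⟨kM1, kM2⟩ := add_even (i + 2) M (by rw [Nat.div_eq_of_lt hM])
  have aM := al_lt (i + 2) hM
  have bM : be M < 2 ^ (i + 2) := be_lt (i + 2) (by omega)
  obtain ⟨b1, l1⟩ := IH M (by omega)
  obtain ⟨b2, l2⟩ := IH (M + 4 ^ (i + 1)) (by omega)
  obtain ⟨b3, l3⟩ := IH (M + 4 ^ i) (by omega)
  have hrec : ∀ D, w (M + 4 ^ (i + 2)) D =
      (if 4 ^ (i + 2) ≤ D then w M (D - 4 ^ (i + 2)) else 0) +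
      (if 4 ^ (i + 1) ≤ D then w (M + 4 ^ (i + 1)) (D - 4 ^ (i + 1)) else 0) +
      (if 2 * 4 ^ (i + 1) ≤ D then w M (D - 2 * 4 ^ (i + 1)) else 0) +
      (if 3 * 4 ^ i ≤ D then w (M + 4 ^ i) (D - 3 * 4 ^ i) else 0) := by
    intro D
    have := hw (2 * i) M D
    have e8 : 8 * 4 ^ i = 2 * 4 ^ (i + 1) := by rw [e4]; ring
    rw [pow_even, ← e4, ← e4', e8] at this
    exact this
  have ad : ∀ u, al (u + 4 ^ i) + be (u + 4 ^ i) < al u + be u + 2 ^ i ∨
      (al (u + 4 ^ i) + be (u + 4 ^ i) = al u + be u + 2 ^ i ∧ be (u + 4 ^ i) ≤ be u) := by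
    intro u
    have := kadd u (4 ^ i)
    obtain ⟨e3, e5⟩ := add_even i 0 (by simp)
    rw [zero_add, al_zero] at e3
    rw [zero_add, be_zero] at e5
    omega
  have ad4 : ∀ u, al (u + 4 ^ (i + 1)) + be (u + 4 ^ (i + 1)) < al u + be u + 2 * 2 ^ i ∨
      (al (u + 4 ^ (i + 1)) + be (u + 4 ^ (i + 1)) = al u + be u + 2 * 2 ^ i ∧
        be (u + 4 ^ (i + 1)) ≤ be u) := by
    intro u
    have := kadd u (4 ^ (i + 1))
    obtain ⟨e3, e5⟩ := add_even (i + 1) 0 (by simp)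
    rw [zero_add, al_zero] at e3
    rw [zero_add, be_zero] at e5
    omega
  have ad16 : ∀ u, al (u + 4 ^ (i + 2)) + be (u + 4 ^ (i + 2)) < al u + be u + 4 * 2 ^ i ∨
      (al (u + 4 ^ (i + 2)) + be (u + 4 ^ (i + 2)) = al u + be u + 4 * 2 ^ i ∧
        be (u + 4 ^ (i + 2)) ≤ be u) := by
    intro u
    have := kadd u (4 ^ (i + 2))
    obtain ⟨e3, e5⟩ := add_even (i + 2) 0 (by simp)
    rw [zero_add, al_zero] at e3
    rw [zero_add, be_zero] at e5
    omega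
  have ad8 : ∀ u, al (u + 2 * 4 ^ (i + 1)) + be (u + 2 * 4 ^ (i + 1)) <
      al u + be u + 2 * 2 ^ i ∨
      (al (u + 2 * 4 ^ (i + 1)) + be (u + 2 * 4 ^ (i + 1)) = al u + be u + 2 * 2 ^ i ∧
        be (u + 2 * 4 ^ (i + 1)) ≤ be u + 2 * 2 ^ i) := by
    intro u
    have := kadd u (2 * 4 ^ (i + 1))
    obtain ⟨e3, e5⟩ := add_odd (i + 1) 0 (by simp)
    rw [zero_add, al_zero] at e3
    rw [zero_add, be_zero] at e5
    omega
  have ad2 : ∀ u, al (u + 2 * 4 ^ i) + be (u + 2 * 4 ^ i) < al u + be u + 2 ^ i ∨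
      (al (u + 2 * 4 ^ i) + be (u + 2 * 4 ^ i) = al u + be u + 2 ^ i ∧
        be (u + 2 * 4 ^ i) ≤ be u + 2 ^ i) := by
    intro u
    have := kadd u (2 * 4 ^ i)
    obtain ⟨e3, e5⟩ := add_odd i 0 (by simp)
    rw [zero_add, al_zero] at e3
    rw [zero_add, be_zero] at e5
    omega
  have F1 : ∀ E, 4 ^ (i + 2) ≤ E → w M (E - 4 ^ (i + 2)) ≠ 0 →
      al E + be E + 1 < al M + be M + 4 * 2 ^ i ∨
      (al E + be E + 1 = al M + be M + 4 * 2 ^ i ∧ be E + 1 ≤ be M) := by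
    intro E hE h
    have h1 := b1 _ h
    have h2 := ad16 (E - 4 ^ (i + 2))
    rw [Nat.sub_add_cancel hE] at h2
    omega
  have F2 : ∀ E, 4 ^ (i + 1) ≤ E → w (M + 4 ^ (i + 1)) (E - 4 ^ (i + 1)) ≠ 0 →
      al E + be E + 1 < al M + be M + 4 * 2 ^ i ∨
      (al E + be E + 1 = al M + be M + 4 * 2 ^ i ∧ be E + 1 ≤ be M) := by
    intro E hE h
    have h1 := b2 _ h
    have h2 := ad4 (E - 4 ^ (i + 1))
    rw [Nat.sub_add_cancel hE] at h2
    have h3 := ad4 M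
    omega
  have F3 : ∀ E, 2 * 4 ^ (i + 1) ≤ E → w M (E - 2 * 4 ^ (i + 1)) ≠ 0 →
      al E + be E + 1 < al M + be M + 4 * 2 ^ i := by
    intro E hE h
    have h1 := b1 _ h
    have h2 := ad8 (E - 2 * 4 ^ (i + 1))
    rw [Nat.sub_add_cancel hE] at h2
    omega
  have F4 : ∀ E, 3 * 4 ^ i ≤ E → w (M + 4 ^ i) (E - 3 * 4 ^ i) ≠ 0 →
      al E + be E + 1 < al M + be M + 4 * 2 ^ i := by
    intro E hE h
    have h1 := b3 _ h
    have h2 := ad (E - 3 * 4 ^ i)
    have h4 := ad2 (E - 3 * 4 ^ i + 4 ^ i)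
    have h5 : E - 3 * 4 ^ i + 4 ^ i + 2 * 4 ^ i = E := by omega
    rw [h5] at h4
    have h3 := ad M
    omega
  refine ⟨?_, ?_⟩
  · intro E hE
    rw [hrec] at hE
    rw [kM1, kM2, e2']
    by_cases c1 : 4 ^ (i + 2) ≤ E ∧ w M (E - 4 ^ (i + 2)) ≠ 0
    · have := F1 E c1.1 c1.2
      omega
    by_cases c2 : 4 ^ (i + 1) ≤ E ∧ w (M + 4 ^ (i + 1)) (E - 4 ^ (i + 1)) ≠ 0
    · have := F2 E c2.1 c2.2
      omega
    by_cases c3 : 2 * 4 ^ (i + 1) ≤ E ∧ w M (E - 2 * 4 ^ (i + 1)) ≠ 0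
    · have := F3 E c3.1 c3.2
      omega
    by_cases c4 : 3 * 4 ^ i ≤ E ∧ w (M + 4 ^ i) (E - 3 * 4 ^ i) ≠ 0
    · have := F4 E c4.1 c4.2
      omega
    exfalso
    apply hE
    have z1 : (if 4 ^ (i + 2) ≤ E then w M (E - 4 ^ (i + 2)) else 0) = 0 := by
      split_ifs with h
      · by_contra h'; exact c1 ⟨h, h'⟩
      · rfl
    have z2 : (if 4 ^ (i + 1) ≤ E then w (M + 4 ^ (i + 1)) (E - 4 ^ (i + 1)) else 0) = 0 := by
      split_ifs with h
      · by_contra h'; exact c2 ⟨h, h'⟩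
      · rfl
    have z3 : (if 2 * 4 ^ (i + 1) ≤ E then w M (E - 2 * 4 ^ (i + 1)) else 0) = 0 := by
      split_ifs with h
      · by_contra h'; exact c3 ⟨h, h'⟩
      · rfl
    have z4 : (if 3 * 4 ^ i ≤ E then w (M + 4 ^ i) (E - 3 * 4 ^ i) else 0) = 0 := by
      split_ifs with h
      · by_contra h'; exact c4 ⟨h, h'⟩
      · rfl
    rw [z1, z2, z3, z4]; simp
  · intro D hD1 hD2
    rw [kM1, e2'] at hD1
    rw [kM2] at hD2
    rw [hrec]
    have z3 : (if 2 * 4 ^ (i + 1) ≤ D then w M (D - 2 * 4 ^ (i + 1)) else 0) = 0 := by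
      split_ifs with h
      · by_contra h'
        have := F3 D h h'
        omega
      · rfl
    have z4 : (if 3 * 4 ^ i ≤ D then w (M + 4 ^ i) (D - 3 * 4 ^ i) else 0) = 0 := by
      split_ifs with h
      · by_contra h'
        have := F4 D h h'
        omega
      · rfl
    have z2 : (if 4 ^ (i + 1) ≤ D then w (M + 4 ^ (i + 1)) (D - 4 ^ (i + 1)) else 0) = 0 := by
      split_ifs with h
      · by_contra h'
        have c1 := b2 _ h'
        have hDE : D - 4 ^ (i + 1) + 4 ^ (i + 1) = D := Nat.sub_add_cancel h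
        have c2 := ad4 (D - 4 ^ (i + 1))
        rw [hDE] at c2
        have c3 := ad4 M
        have m0 : (M / 4 ^ (i + 1)) % 2 = 0 := by
          by_contra hc
          have := add_even_set (i + 1) M (by omega)
          omega
        have d0 : ((D - 4 ^ (i + 1)) / 4 ^ (i + 1)) % 2 = 0 := by
          by_contra hc
          have := add_even_set (i + 1) (D - 4 ^ (i + 1)) (by omega)
          rw [hDE] at this
          omega
        obtain ⟨g3, g4⟩ := add_even (i + 1) M m0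
        obtain ⟨g5, g6⟩ := add_even (i + 1) (D - 4 ^ (i + 1)) d0
        rw [hDE] at g5 g6
        rw [← al_bit] at m0 d0
        have s1 : al M < 2 ^ (i + 1) := by
          by_contra hc
          have : al M / 2 ^ (i + 1) = 1 := by
            apply Nat.div_eq_of_lt_le <;> omega
          omega
        have s2 : al (D - 4 ^ (i + 1)) / 2 ^ (i + 1) = 1 := by
          apply Nat.div_eq_of_lt_le <;> omega
        omega
      · rfl
    obtain ⟨E, hE1, hE2⟩ := code_surj (al M) (be M - 1)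
    have hb : (E / 4 ^ (i + 2)) % 2 = 0 := by
      rw [← al_bit, hE1, Nat.div_eq_of_lt (by omega)]
    obtain ⟨g1, g2⟩ := add_even (i + 2) E hb
    have hED : E + 4 ^ (i + 2) = D := code_inj (by omega) (by omega)
    rw [z2, z3, z4, add_zero, add_zero, add_zero, if_pos (by omega)]
    have : D - 4 ^ (i + 2) = E := by omega
    rw [this]
    exact l1 E (by omega) (by omega)

theorem step5_odd {w : ℕ → ℕ → ZMod 2} (hw : Rec5 w) (i M : ℕ) (hM : M < 2 * 4 ^ (i + 2))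
    (IH : ∀ K < M + 2 * 4 ^ (i + 2), C5 w K) : C5 w (M + 2 * 4 ^ (i + 2)) := by
  have hp : 0 < 4 ^ i := by positivity
  have hq : 0 < 2 ^ i := by positivity
  have e4 : 4 ^ (i + 1) = 4 * 4 ^ i := pow_succ' 4 i
  have e4' : 4 ^ (i + 2) = 16 * 4 ^ i := by rw [pow_add]; ring
  have e2 : 2 ^ (i + 1) = 2 * 2 ^ i := pow_succ' 2 i
  have e2' : 2 ^ (i + 2) = 4 * 2 ^ i := by rw [pow_add]; ring
  obtain ⟨kM1, kM2⟩ := add_odd (i + 2) M (by rw [Nat.div_eq_of_lt hM])
  have bM : be M < 2 ^ (i + 2) := be_lt (i + 2) hM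
  have aM : al M < 2 ^ (i + 3) := al_lt (i + 3) (by
    have : 4 ^ (i + 3) = 4 * 4 ^ (i + 2) := pow_succ' 4 _
    omega)
  obtain ⟨b1, l1⟩ := IH M (by omega)
  obtain ⟨b2, l2⟩ := IH (M + 2 * 4 ^ (i + 1)) (by omega)
  obtain ⟨b3, l3⟩ := IH (M + 2 * 4 ^ i) (by omega)
  have hrec : ∀ D, w (M + 2 * 4 ^ (i + 2)) D =
      (if 2 * 4 ^ (i + 2) ≤ D then w M (D - 2 * 4 ^ (i + 2)) else 0) +
      (if 2 * 4 ^ (i + 1) ≤ D then w (M + 2 * 4 ^ (i + 1)) (D - 2 * 4 ^ (i + 1)) else 0) +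
      (if 4 ^ (i + 2) ≤ D then w M (D - 4 ^ (i + 2)) else 0) +
      (if 3 * (2 * 4 ^ i) ≤ D then w (M + 2 * 4 ^ i) (D - 3 * (2 * 4 ^ i)) else 0) := by
    intro D
    have := hw (2 * i + 1) M D
    have e5 : 2 ^ (2 * i + 1) = 2 * 4 ^ i := by rw [pow_succ', pow_even]
    have e6 : 16 * (2 * 4 ^ i) = 2 * 4 ^ (i + 2) := by rw [e4']; ring
    have e7 : 4 * (2 * 4 ^ i) = 2 * 4 ^ (i + 1) := by rw [e4]; ring
    have e8 : 8 * (2 * 4 ^ i) = 4 ^ (i + 2) := by rw [e4']; ring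
    rw [e5, e6, e7, e8] at this
    exact this
  have ad : ∀ u, al (u + 2 * 4 ^ i) + be (u + 2 * 4 ^ i) < al u + be u + 2 ^ i ∨
      (al (u + 2 * 4 ^ i) + be (u + 2 * 4 ^ i) = al u + be u + 2 ^ i ∧
        be (u + 2 * 4 ^ i) ≤ be u + 2 ^ i) := by
    intro u
    have := kadd u (2 * 4 ^ i)
    obtain ⟨e3, e5⟩ := add_odd i 0 (by simp)
    rw [zero_add, al_zero] at e3
    rw [zero_add, be_zero] at e5
    omega
  have ad4 : ∀ u, al (u + 2 * 4 ^ (i + 1)) + be (u + 2 * 4 ^ (i + 1)) <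
      al u + be u + 2 * 2 ^ i ∨
      (al (u + 2 * 4 ^ (i + 1)) + be (u + 2 * 4 ^ (i + 1)) = al u + be u + 2 * 2 ^ i ∧
        be (u + 2 * 4 ^ (i + 1)) ≤ be u + 2 * 2 ^ i) := by
    intro u
    have := kadd u (2 * 4 ^ (i + 1))
    obtain ⟨e3, e5⟩ := add_odd (i + 1) 0 (by simp)
    rw [zero_add, al_zero] at e3
    rw [zero_add, be_zero] at e5
    omega
  have ad16 : ∀ u, al (u + 2 * 4 ^ (i + 2)) + be (u + 2 * 4 ^ (i + 2)) <
      al u + be u + 4 * 2 ^ i ∨
      (al (u + 2 * 4 ^ (i + 2)) + be (u + 2 * 4 ^ (i + 2)) = al u + be u + 4 * 2 ^ i ∧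
        be (u + 2 * 4 ^ (i + 2)) ≤ be u + 4 * 2 ^ i) := by
    intro u
    have := kadd u (2 * 4 ^ (i + 2))
    obtain ⟨e3, e5⟩ := add_odd (i + 2) 0 (by simp)
    rw [zero_add, al_zero] at e3
    rw [zero_add, be_zero] at e5
    omega
  have ad8 : ∀ u, al (u + 4 ^ (i + 2)) + be (u + 4 ^ (i + 2)) < al u + be u + 4 * 2 ^ i ∨
      (al (u + 4 ^ (i + 2)) + be (u + 4 ^ (i + 2)) = al u + be u + 4 * 2 ^ i ∧
        be (u + 4 ^ (i + 2)) ≤ be u) := by
    intro u
    have := kadd u (4 ^ (i + 2))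
    obtain ⟨e3, e5⟩ := add_even (i + 2) 0 (by simp)
    rw [zero_add, al_zero] at e3
    rw [zero_add, be_zero] at e5
    omega
  have ad2 : ∀ u, al (u + 4 ^ (i + 1)) + be (u + 4 ^ (i + 1)) < al u + be u + 2 * 2 ^ i ∨
      (al (u + 4 ^ (i + 1)) + be (u + 4 ^ (i + 1)) = al u + be u + 2 * 2 ^ i ∧
        be (u + 4 ^ (i + 1)) ≤ be u) := by
    intro u
    have := kadd u (4 ^ (i + 1))
    obtain ⟨e3, e5⟩ := add_even (i + 1) 0 (by simp)
    rw [zero_add, al_zero] at e3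
    rw [zero_add, be_zero] at e5
    omega
  have F1 : ∀ E, 2 * 4 ^ (i + 2) ≤ E → w M (E - 2 * 4 ^ (i + 2)) ≠ 0 →
      al E + be E + 1 < al M + be M + 4 * 2 ^ i ∨
      (al E + be E + 1 = al M + be M + 4 * 2 ^ i ∧ be E + 1 ≤ be M + 4 * 2 ^ i) := by
    intro E hE h
    have h1 := b1 _ h
    have h2 := ad16 (E - 2 * 4 ^ (i + 2))
    rw [Nat.sub_add_cancel hE] at h2
    omega
  have F2 : ∀ E, 2 * 4 ^ (i + 1) ≤ E → w (M + 2 * 4 ^ (i + 1)) (E - 2 * 4 ^ (i + 1)) ≠ 0 →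
      al E + be E + 1 < al M + be M + 4 * 2 ^ i ∨
      (al E + be E + 1 = al M + be M + 4 * 2 ^ i ∧ be E + 1 ≤ be M + 4 * 2 ^ i) := by
    intro E hE h
    have h1 := b2 _ h
    have h2 := ad4 (E - 2 * 4 ^ (i + 1))
    rw [Nat.sub_add_cancel hE] at h2
    have h3 := ad4 M
    omega
  have F3 : ∀ E, 4 ^ (i + 2) ≤ E → w M (E - 4 ^ (i + 2)) ≠ 0 →
      al E + be E + 1 < al M + be M + 4 * 2 ^ i ∨
      (al E + be E + 1 = al M + be M + 4 * 2 ^ i ∧ be E + 1 ≤ be M) := by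
    intro E hE h
    have h1 := b1 _ h
    have h2 := ad8 (E - 4 ^ (i + 2))
    rw [Nat.sub_add_cancel hE] at h2
    omega
  have F4 : ∀ E, 3 * (2 * 4 ^ i) ≤ E → w (M + 2 * 4 ^ i) (E - 3 * (2 * 4 ^ i)) ≠ 0 →
      al E + be E + 1 < al M + be M + 4 * 2 ^ i ∨
      (al E + be E + 1 = al M + be M + 4 * 2 ^ i ∧ be E + 1 ≤ be M + 2 * 2 ^ i) := by
    intro E hE h
    have h1 := b3 _ h
    have h2 := ad (E - 3 * (2 * 4 ^ i))
    have h4 := ad2 (E - 3 * (2 * 4 ^ i) + 2 * 4 ^ i)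
    have h5 : E - 3 * (2 * 4 ^ i) + 2 * 4 ^ i + 4 ^ (i + 1) = E := by omega
    rw [h5] at h4
    have h3 := ad M
    omega
  refine ⟨?_, ?_⟩
  · intro E hE
    rw [hrec] at hE
    rw [kM1, kM2, e2']
    by_cases c1 : 2 * 4 ^ (i + 2) ≤ E ∧ w M (E - 2 * 4 ^ (i + 2)) ≠ 0
    · have := F1 E c1.1 c1.2
      omega
    by_cases c2 : 2 * 4 ^ (i + 1) ≤ E ∧ w (M + 2 * 4 ^ (i + 1)) (E - 2 * 4 ^ (i + 1)) ≠ 0
    · have := F2 E c2.1 c2.2
      omega
    by_cases c3 : 4 ^ (i + 2) ≤ E ∧ w M (E - 4 ^ (i + 2)) ≠ 0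
    · have := F3 E c3.1 c3.2
      omega
    by_cases c4 : 3 * (2 * 4 ^ i) ≤ E ∧ w (M + 2 * 4 ^ i) (E - 3 * (2 * 4 ^ i)) ≠ 0
    · have := F4 E c4.1 c4.2
      omega
    exfalso
    apply hE
    have z1 : (if 2 * 4 ^ (i + 2) ≤ E then w M (E - 2 * 4 ^ (i + 2)) else 0) = 0 := by
      split_ifs with h
      · by_contra h'; exact c1 ⟨h, h'⟩
      · rfl
    have z2 : (if 2 * 4 ^ (i + 1) ≤ E then w (M + 2 * 4 ^ (i + 1)) (E - 2 * 4 ^ (i + 1))
        else 0) = 0 := by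
      split_ifs with h
      · by_contra h'; exact c2 ⟨h, h'⟩
      · rfl
    have z3 : (if 4 ^ (i + 2) ≤ E then w M (E - 4 ^ (i + 2)) else 0) = 0 := by
      split_ifs with h
      · by_contra h'; exact c3 ⟨h, h'⟩
      · rfl
    have z4 : (if 3 * (2 * 4 ^ i) ≤ E then w (M + 2 * 4 ^ i) (E - 3 * (2 * 4 ^ i))
        else 0) = 0 := by
      split_ifs with h
      · by_contra h'; exact c4 ⟨h, h'⟩
      · rfl
    rw [z1, z2, z3, z4]; simp
  · intro D hD1 hD2
    rw [kM1] at hD1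
    rw [kM2, e2'] at hD2
    rw [hrec]
    have z3 : (if 4 ^ (i + 2) ≤ D then w M (D - 4 ^ (i + 2)) else 0) = 0 := by
      split_ifs with h
      · by_contra h'
        have := F3 D h h'
        omega
      · rfl
    have z4 : (if 3 * (2 * 4 ^ i) ≤ D then w (M + 2 * 4 ^ i) (D - 3 * (2 * 4 ^ i))
        else 0) = 0 := by
      split_ifs with h
      · by_contra h'
        have := F4 D h h'
        omega
      · rfl
    rw [z3, z4, add_zero, add_zero]
    rcases Nat.eq_zero_or_pos (be M) with h0 | h0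
    · have hlt : D < 2 * 4 ^ (i + 2) :=
        lt_two_four (i + 2) (by rw [hD1]; exact aM) (by omega)
      rw [if_neg (c := 2 * 4 ^ (i + 2) ≤ D) (by omega), zero_add]
      obtain ⟨E, hE1, hE2⟩ := code_surj (al M) (2 * 2 ^ i - 1)
      have hb : (E / (2 * 4 ^ (i + 1))) % 2 = 0 := by
        rw [← be_bit, hE2, Nat.div_eq_of_lt (by omega)]
      obtain ⟨g1, g2⟩ := add_odd (i + 1) E hb
      have hED : E + 2 * 4 ^ (i + 1) = D := code_inj (by omega) (by omega)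
      rw [if_pos (by omega)]
      have : D - 2 * 4 ^ (i + 1) = E := by omega
      rw [this]
      have hm : (M / (2 * 4 ^ (i + 1))) % 2 = 0 := by rw [← be_bit, h0]; simp
      obtain ⟨g3, g4⟩ := add_odd (i + 1) M hm
      exact l2 E (by omega) (by omega)
    · have z2 : (if 2 * 4 ^ (i + 1) ≤ D then w (M + 2 * 4 ^ (i + 1)) (D - 2 * 4 ^ (i + 1))
          else 0) = 0 := by
        split_ifs with h
        · by_contra h'
          have c1 := b2 _ h'
          have hDE : D - 2 * 4 ^ (i + 1) + 2 * 4 ^ (i + 1) = D := Nat.sub_add_cancel h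
          have c2 := ad4 (D - 2 * 4 ^ (i + 1))
          rw [hDE] at c2
          have c3 := ad4 M
          have m0 : (M / (2 * 4 ^ (i + 1))) % 2 = 0 := by
            by_contra hc
            have := add_odd_set (i + 1) M (by omega)
            omega
          have d0 : ((D - 2 * 4 ^ (i + 1)) / (2 * 4 ^ (i + 1))) % 2 = 0 := by
            by_contra hc
            have := add_odd_set (i + 1) (D - 2 * 4 ^ (i + 1)) (by omega)
            rw [hDE] at this
            omega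
          obtain ⟨g3, g4⟩ := add_odd (i + 1) M m0
          obtain ⟨g5, g6⟩ := add_odd (i + 1) (D - 2 * 4 ^ (i + 1)) d0
          rw [hDE] at g5 g6
          rw [← be_bit] at m0 d0
          have s1 : be M < 2 ^ (i + 1) := by
            by_contra hc
            have : be M / 2 ^ (i + 1) = 1 := by
              apply Nat.div_eq_of_lt_le <;> omega
            omega
          have s2 : be (D - 2 * 4 ^ (i + 1)) / 2 ^ (i + 1) = 1 := by
            apply Nat.div_eq_of_lt_le <;> omega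
          omega
        · rfl
      obtain ⟨E, hE1, hE2⟩ := code_surj (al M) (be M - 1)
      have hb : (E / (2 * 4 ^ (i + 2))) % 2 = 0 := by
        rw [← be_bit, hE2, Nat.div_eq_of_lt (by omega)]
      obtain ⟨g1, g2⟩ := add_odd (i + 2) E hb
      have hED : E + 2 * 4 ^ (i + 2) = D := code_inj (by omega) (by omega)
      rw [z2, add_zero, if_pos (by omega)]
      have : D - 2 * 4 ^ (i + 2) = E := by omega
      rw [this]
      exact l1 E (by omega) (by omega)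

/-- the table of `T₅` on `Δ^(2K+1)`, `K < 16` -/
def tab5 : ℕ → List ℕ
  | 2 => [0]
  | 3 => [1]
  | 6 => [4]
  | 7 => [1, 5]
  | 8 => [2]
  | 9 => [3]
  | 10 => [4, 8]
  | 11 => [5, 9]
  | 12 => [2, 6]
  | 13 => [3, 7]
  | 14 => [8, 12]
  | 15 => [13]
  | _ => []

theorem P5 {w : ℕ → ℕ → ZMod 2} (hw : Rec5 w)
    (h0 : ∀ K < 16, ∀ D, w K D = if D ∈ tab5 K then 1 else 0) (K : ℕ) : C5 w K := by
  induction K using Nat.strong_induction_on with
  | _ K ih =>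
    by_cases hK : K < 16
    · have t : ∀ n < 16, al n = [0, 1, 0, 1, 2, 3, 2, 3, 0, 1, 0, 1, 2, 3, 2, 3].getD n 0 ∧
          be n = [0, 0, 1, 1, 0, 0, 1, 1, 2, 2, 3, 3, 2, 2, 3, 3].getD n 0 := by
        have z1 : al 1 = 1 := al_one
        have z2 : be 1 = 0 := be_one
        have z3 : al 2 = 0 := by rw [al_rec]; simp
        have z4 : be 2 = 1 := by rw [be_rec]; simp
        have z5 : al 3 = 1 := by rw [al_rec]; simp
        have z6 : be 3 = 1 := by rw [be_rec]; simp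
        intro n hn
        have a := al_rec n
        have b := be_rec n
        interval_cases n <;> simp_all
      have hc : ∀ K < 16, (∀ E ∈ tab5 K, E < 16 ∧
          (al E + be E + 1 < al K + be K ∨ (al E + be E + 1 = al K + be K ∧ be E + 1 ≤ be K))) ∧
          (0 < be K → ∃ D ∈ tab5 K, al D = al K ∧ be D + 1 = be K) := by
        intro K hK
        have t' := t
        interval_cases K <;> simp [tab5, t]
      obtain ⟨c1, c2⟩ := hc K hK
      refine ⟨fun E hE => ?_, fun D hD1 hD2 => ?_⟩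
      · rw [h0 K hK] at hE
        have : E ∈ tab5 K := by by_contra h; rw [if_neg h] at hE; exact hE rfl
        exact (c1 E this).2
      · obtain ⟨D', hD', e1, e2⟩ := c2 (by omega)
        have : D = D' := code_inj (by omega) (by omega)
        rw [h0 K hK, this, if_pos hD']
    · rcases two_pow_cases K (by omega) with ⟨i, M, hM, rfl⟩ | ⟨i, M, hM, rfl⟩
      · obtain ⟨i, rfl⟩ : ∃ i', i = i' + 2 := by
          refine ⟨i - 2, ?_⟩
          by_contra h
          have : i < 2 := by omega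
          interval_cases i <;> simp at hM hK <;> omega
        exact step5_even hw i M hM ih
      · obtain ⟨i, rfl⟩ : ∃ i', i = i' + 2 := by
          refine ⟨i - 2, ?_⟩
          by_contra h
          have : i < 2 := by omega
          interval_cases i <;> simp at hM hK <;> omega
        exact step5_odd hw i M hM ih

end Vale.Agent.P022.H472.NS
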