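import Mathlib

/-!
# The sharp form of the nilpotence order of Nicolas and Serre

`w K D` is the coefficient of `Δ^(2D+1)` in `T (Δ^(2K+1))`, `T = T₃` or `T₅`.  The code of `K` is
`(al K, be K)`, the even and the odd bits of `K`.
-/

namespace Vale.Agent.P022.H472.NS

/-- the bits of even rank -/
def al (n : ℕ) : ℕ := if n = 0 then 0 else n % 2 + 2 * al (n / 4)
termination_by n
decreasing_by omega

/-- the bits of odd rank -/
def be (n : ℕ) : ℕ := if n = 0 then 0 else (n / 2) % 2 + 2 * be (n / 4)
termination_by n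
decreasing_by omega

theorem al_rec (n : ℕ) : al n = n % 2 + 2 * al (n / 4) := by
  rcases Nat.eq_zero_or_pos n with h | h
  · subst h
    have h0 : al 0 = 0 := by rw [al]; simp
    simp [h0]
  · rw [al, if_neg (by omega)]

theorem be_rec (n : ℕ) : be n = (n / 2) % 2 + 2 * be (n / 4) := by
  rcases Nat.eq_zero_or_pos n with h | h
  · subst h
    have h0 : be 0 = 0 := by rw [be]; simp
    simp [h0]
  · rw [be, if_neg (by omega)]

@[simp] theorem al_zero : al 0 = 0 := by rw [al]; simp
@[simp] theorem be_zero : be 0 = 0 := by rw [be]; simp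
theorem al_one : al 1 = 1 := by rw [al_rec]; simp
theorem be_one : be 1 = 0 := by rw [be_rec]; simp

/-- subadditivity of the code, for the lexicographic order of `(al + be, be)` -/
theorem kadd (u v : ℕ) :
    al (u + v) + be (u + v) < al u + be u + (al v + be v) ∨
    (al (u + v) + be (u + v) = al u + be u + (al v + be v) ∧ be (u + v) ≤ be u + be v) := by
  induction hs : u + v using Nat.strong_induction_on generalizing u v with
  | _ s ih =>
    subst hs
    rcases Nat.eq_zero_or_pos u with hu | hu
    · subst hu; right; simp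
    rcases Nat.eq_zero_or_pos v with hv | hv
    · subst hv; right; simp
    rcases Nat.lt_or_ge (u + v) 4 with h4 | h4
    · have h1 : al 2 = 0 := by rw [al_rec]; simp
      have h2 : be 2 = 1 := by rw [be_rec]; simp
      have h3 : al 3 = 1 := by rw [al_rec]; simp
      have h5 : be 3 = 1 := by rw [be_rec]; simp
      have ha := al_one
      have hb := be_one
      have : u < 4 := by omega
      have : v < 4 := by omega
      interval_cases u <;> interval_cases v <;> simp_all
    have e1 := ih (u / 4 + v / 4) (by omega) (u / 4) (v / 4) rfl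
    have e2 := ih (u / 4 + v / 4 + 1) (by omega) (u / 4 + v / 4) 1 rfl
    rw [al_one, be_one] at e2
    have a1 := al_rec u
    have a2 := al_rec v
    have a3 := al_rec (u + v)
    have b1 := be_rec u
    have b2 := be_rec v
    have b3 := be_rec (u + v)
    by_cases hc : u % 4 + v % 4 < 4
    · have h1 : (u + v) / 4 = u / 4 + v / 4 := by omega
      rw [h1] at a3 b3
      omega
    · have h1 : (u + v) / 4 = u / 4 + v / 4 + 1 := by omega
      rw [h1] at a3 b3
      omega

theorem add_even (i u : ℕ) (h : (u / 4 ^ i) % 2 = 0) :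
    al (u + 4 ^ i) = al u + 2 ^ i ∧ be (u + 4 ^ i) = be u := by
  induction i generalizing u with
  | zero =>
    simp only [pow_zero, Nat.div_one] at h ⊢
    have a1 := al_rec u
    have a2 := al_rec (u + 1)
    have b1 := be_rec u
    have b2 := be_rec (u + 1)
    have h1 : (u + 1) / 4 = u / 4 := by omega
    rw [h1] at a2 b2
    omega
  | succ i ih =>
    have h0 : (u / 4 / 4 ^ i) % 2 = 0 := by
      rw [Nat.div_div_eq_div_mul, ← pow_succ']; exact h
    obtain ⟨e1, e2⟩ := ih (u / 4) h0
    have a1 := al_rec u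
    have a2 := al_rec (u + 4 ^ (i + 1))
    have b1 := be_rec u
    have b2 := be_rec (u + 4 ^ (i + 1))
    have h1 : (u + 4 ^ (i + 1)) / 4 = u / 4 + 4 ^ i := by rw [pow_succ]; omega
    have h2 : (u + 4 ^ (i + 1)) % 2 = u % 2 := by rw [pow_succ]; omega
    have h3 : (u + 4 ^ (i + 1)) / 2 % 2 = u / 2 % 2 := by rw [pow_succ]; omega
    rw [h1, h2] at a2
    rw [h1, h3] at b2
    rw [pow_succ 2 i]
    omega

theorem add_odd (i u : ℕ) (h : (u / (2 * 4 ^ i)) % 2 = 0) :
    al (u + 2 * 4 ^ i) = al u ∧ be (u + 2 * 4 ^ i) = be u + 2 ^ i := by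
  induction i generalizing u with
  | zero =>
    simp only [pow_zero, mul_one] at h ⊢
    have a1 := al_rec u
    have a2 := al_rec (u + 2)
    have b1 := be_rec u
    have b2 := be_rec (u + 2)
    have h1 : (u + 2) / 4 = u / 4 := by omega
    rw [h1] at a2 b2
    omega
  | succ i ih =>
    have h0 : (u / 4 / (2 * 4 ^ i)) % 2 = 0 := by
      rw [Nat.div_div_eq_div_mul]
      have : 4 * (2 * 4 ^ i) = 2 * 4 ^ (i + 1) := by rw [pow_succ]; ring
      rw [this]; exact h
    obtain ⟨e1, e2⟩ := ih (u / 4) h0
    have a1 := al_rec u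
    have a2 := al_rec (u + 2 * 4 ^ (i + 1))
    have b1 := be_rec u
    have b2 := be_rec (u + 2 * 4 ^ (i + 1))
    have h1 : (u + 2 * 4 ^ (i + 1)) / 4 = u / 4 + 2 * 4 ^ i := by rw [pow_succ]; omega
    have h2 : (u + 2 * 4 ^ (i + 1)) % 2 = u % 2 := by omega
    have h3 : (u + 2 * 4 ^ (i + 1)) / 2 % 2 = u / 2 % 2 := by rw [pow_succ]; omega
    rw [h1, h2] at a2
    rw [h1, h3] at b2
    rw [pow_succ 2 i]
    omega

theorem al_bit (i u : ℕ) : (al u / 2 ^ i) % 2 = (u / 4 ^ i) % 2 := by
  induction i generalizing u with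
  | zero =>
    have a1 := al_rec u
    simp only [pow_zero, Nat.div_one]
    omega
  | succ i ih =>
    have a1 := al_rec u
    have h1 : al u / 2 = al (u / 4) := by omega
    rw [pow_succ', pow_succ', ← Nat.div_div_eq_div_mul, ← Nat.div_div_eq_div_mul, h1, ih]

theorem be_bit (i u : ℕ) : (be u / 2 ^ i) % 2 = (u / (2 * 4 ^ i)) % 2 := by
  induction i generalizing u with
  | zero =>
    have a1 := be_rec u
    simp only [pow_zero, Nat.div_one, mul_one]
    omega
  | succ i ih =>
    have a1 := be_rec u
    have h1 : be u / 2 = be (u / 4) := by omega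
    have h2 : 2 * 4 ^ (i + 1) = 4 * (2 * 4 ^ i) := by rw [pow_succ]; ring
    rw [h2, pow_succ', ← Nat.div_div_eq_div_mul, ← Nat.div_div_eq_div_mul, h1, ih]

theorem code_inj {u v : ℕ} (ha : al u = al v) (hb : be u = be v) : u = v := by
  induction u using Nat.strong_induction_on generalizing v with
  | _ u ih =>
    rcases Nat.eq_zero_or_pos u with hu | hu
    · subst hu
      rcases Nat.eq_zero_or_pos v with hv | hv
      · exact hv.symm
      exfalso
      have key : ∀ n : ℕ, 0 < n → 0 < al n + be n := by
        intro n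
        induction n using Nat.strong_induction_on with
        | _ n ihn =>
          intro hn
          have a := al_rec n
          have b := be_rec n
          by_cases h4 : n < 4
          · omega
          · have := ihn (n / 4) (by omega) (by omega)
            omega
      have := key v hv
      rw [al_zero] at ha
      rw [be_zero] at hb
      omega
    · have a1 := al_rec u
      have a2 := al_rec v
      have b1 := be_rec u
      have b2 := be_rec v
      have h := ih (u / 4) (by omega) (v := v / 4) (by omega) (by omega)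
      omega

theorem code_surj (a b : ℕ) : ∃ n, al n = a ∧ be n = b := by
  induction hs : a + b using Nat.strong_induction_on generalizing a b with
  | _ s ih =>
    subst hs
    rcases Nat.eq_zero_or_pos (a + b) with h | h
    · exact ⟨0, by simp; omega, by simp; omega⟩
    · obtain ⟨n, hn1, hn2⟩ := ih (a / 2 + b / 2) (by omega) (a / 2) (b / 2) rfl
      refine ⟨4 * n + a % 2 + 2 * (b % 2), ?_, ?_⟩
      · rw [al_rec]
        have h1 : (4 * n + a % 2 + 2 * (b % 2)) / 4 = n := by omega
        rw [h1, hn1]
        omega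
      · rw [be_rec]
        have h1 : (4 * n + a % 2 + 2 * (b % 2)) / 4 = n := by omega
        rw [h1, hn2]
        omega

theorem al_lt (i : ℕ) {u : ℕ} (h : u < 4 ^ i) : al u < 2 ^ i := by
  induction i generalizing u with
  | zero =>
    have : u = 0 := by simpa using h
    subst this; simp
  | succ i ih =>
    have := ih (u := u / 4) (by rw [pow_succ] at h; omega)
    have a := al_rec u
    rw [pow_succ]
    omega

theorem be_lt (i : ℕ) {u : ℕ} (h : u < 2 * 4 ^ i) : be u < 2 ^ i := by
  induction i generalizing u with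
  | zero =>
    have hu : u < 2 := by simpa using h
    have a := be_rec u
    have h1 : u / 4 = 0 := by omega
    rw [h1, be_zero] at a
    simp only [pow_zero]
    omega
  | succ i ih =>
    have := ih (u := u / 4) (by rw [pow_succ] at h; omega)
    have a := be_rec u
    rw [pow_succ]
    omega

theorem lt_four (i : ℕ) {u : ℕ} (ha : al u < 2 ^ i) (hb : be u < 2 ^ i) : u < 4 ^ i := by
  induction i generalizing u with
  | zero =>
    have h1 : al u = al 0 := by simp only [pow_zero] at ha; rw [al_zero]; omega
    have h2 : be u = be 0 := by simp only [pow_zero] at hb; rw [be_zero]; omega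
    rw [code_inj h1 h2]
    simp
  | succ i ih =>
    have a := al_rec u
    have b := be_rec u
    have := ih (u := u / 4) (by rw [pow_succ] at ha; omega) (by rw [pow_succ] at hb; omega)
    rw [pow_succ]
    omega

theorem lt_two_four (i : ℕ) {u : ℕ} (ha : al u < 2 ^ (i + 1)) (hb : be u < 2 ^ i) :
    u < 2 * 4 ^ i := by
  induction i generalizing u with
  | zero =>
    have a := al_rec u
    have b := be_rec u
    simp only [zero_add, pow_one, pow_zero] at ha hb ⊢
    have h1 : al (u / 4) = al 0 := by rw [al_zero]; omega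
    have h2 : be (u / 4) = be 0 := by rw [be_zero]; omega
    have := code_inj h1 h2
    omega
  | succ i ih =>
    have a := al_rec u
    have b := be_rec u
    have := ih (u := u / 4) (by rw [pow_succ] at ha; omega) (by rw [pow_succ] at hb; omega)
    rw [pow_succ]
    omega

/-- the code of `4 ^ i`, and what happens if the bit is already there -/
theorem add_even_set (i u : ℕ) (h : (u / 4 ^ i) % 2 = 1) :
    al (u + 4 ^ i) + be (u + 4 ^ i) < al u + be u + 2 ^ i := by
  obtain ⟨u', rfl⟩ : ∃ u', u = u' + 4 ^ i := by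
    refine ⟨u - 4 ^ i, ?_⟩
    have : 4 ^ i ≤ u := by
      by_contra hc
      rw [Nat.div_eq_of_lt (by omega)] at h
      omega
    omega
  have hp : 0 < 4 ^ i := by positivity
  have h0 : (u' / 4 ^ i) % 2 = 0 := by
    rw [Nat.add_div_right _ hp] at h
    omega
  obtain ⟨e1, e2⟩ := add_even i u' h0
  have h1 : u' + 4 ^ i + 4 ^ i = u' + 2 * 4 ^ i := by ring
  rw [h1]
  have hq := kadd u' (2 * 4 ^ i)
  obtain ⟨e3, e4⟩ := add_odd i 0 (by simp)
  rw [zero_add, al_zero] at e3
  rw [zero_add, be_zero] at e4
  have : 0 < 2 ^ i := by positivity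
  omega

theorem add_odd_set (i u : ℕ) (h : (u / (2 * 4 ^ i)) % 2 = 1) :
    al (u + 2 * 4 ^ i) + be (u + 2 * 4 ^ i) < al u + be u + 2 ^ i ∨
    (al (u + 2 * 4 ^ i) + be (u + 2 * 4 ^ i) = al u + be u + 2 ^ i ∧
      be (u + 2 * 4 ^ i) < be u + 2 ^ i) := by
  have hp : 0 < 2 * 4 ^ i := by positivity
  obtain ⟨u', rfl⟩ : ∃ u', u = u' + 2 * 4 ^ i := by
    refine ⟨u - 2 * 4 ^ i, ?_⟩
    have : 2 * 4 ^ i ≤ u := by
      by_contra hc
      rw [Nat.div_eq_of_lt (by omega)] at h
      omega
    omega
  have h0 : (u' / (2 * 4 ^ i)) % 2 = 0 := by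
    rw [Nat.add_div_right _ hp] at h
    omega
  obtain ⟨e1, e2⟩ := add_odd i u' h0
  have h1 : u' + 2 * 4 ^ i + 2 * 4 ^ i = u' + 4 ^ (i + 1) := by rw [pow_succ]; ring
  rw [h1]
  have hq := kadd u' (4 ^ (i + 1))
  obtain ⟨e3, e4⟩ := add_even (i + 1) 0 (by simp)
  rw [zero_add, al_zero, pow_succ] at e3
  rw [zero_add, be_zero] at e4
  have : 0 < 2 ^ i := by positivity
  rw [pow_succ] at hq e4 ⊢
  rw [e3, e4] at hq
  omega

end Vale.Agent.P022.H472.NS
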