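import Vale.Agent.P022.H472.L3.NS

/-!
# The sharp form of the nilpotence order of Nicolas and Serre: the two recursions
-/

namespace Vale.Agent.P022.H472.NS

/-- the bound and the leading coefficient for `T₃` -/
def C3 (w : ℕ → ℕ → ZMod 2) (K : ℕ) : Prop :=
  (∀ E, w K E ≠ 0 → al E + be E + 1 < al K + be K ∨
    (al E + be E + 1 = al K + be K ∧ be E ≤ be K)) ∧
  ∀ D, al D + 1 = al K → be D = be K → w K D = 1

/-- the bound and the leading coefficient for `T₅` -/
def C5 (w : ℕ → ℕ → ZMod 2) (K : ℕ) : Prop :=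
  (∀ E, w K E ≠ 0 → al E + be E + 1 < al K + be K ∨
    (al E + be E + 1 = al K + be K ∧ be E + 1 ≤ be K)) ∧
  ∀ D, al D = al K → be D + 1 = be K → w K D = 1

def Rec3 (w : ℕ → ℕ → ZMod 2) : Prop := ∀ j M D, w (M + 4 * 2 ^ j) D =
  (if 2 ^ j ≤ D then w (M + 2 ^ j) (D - 2 ^ j) else 0) +
  (if 4 * 2 ^ j ≤ D then w M (D - 4 * 2 ^ j) else 0)

def Rec5 (w : ℕ → ℕ → ZMod 2) : Prop := ∀ j M D, w (M + 16 * 2 ^ j) D =
  (if 16 * 2 ^ j ≤ D then w M (D - 16 * 2 ^ j) else 0) +
  (if 4 * 2 ^ j ≤ D then w (M + 4 * 2 ^ j) (D - 4 * 2 ^ j) else 0) +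
  (if 8 * 2 ^ j ≤ D then w M (D - 8 * 2 ^ j) else 0) +
  (if 3 * 2 ^ j ≤ D then w (M + 2 ^ j) (D - 3 * 2 ^ j) else 0)

theorem pow_even (i : ℕ) : 2 ^ (2 * i) = 4 ^ i := by rw [pow_mul]; norm_num

theorem zone {x : ZMod 2} (h : x ≠ 0) : x = 1 := by
  revert x; decide

theorem step3_even {w : ℕ → ℕ → ZMod 2} (hw : Rec3 w) (i M : ℕ) (hM : M < 4 ^ (i + 1))
    (IH : ∀ K < M + 4 ^ (i + 1), C3 w K) : C3 w (M + 4 ^ (i + 1)) := by
  have hp : 0 < 4 ^ i := by positivity
  have hq : 0 < 2 ^ i := by positivity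
  have e4 : 4 ^ (i + 1) = 4 * 4 ^ i := pow_succ' 4 i
  have e2 : 2 ^ (i + 1) = 2 * 2 ^ i := pow_succ' 2 i
  obtain ⟨kM1, kM2⟩ := add_even (i + 1) M (by rw [Nat.div_eq_of_lt hM])
  have aM := al_lt (i + 1) hM
  have bM : be M < 2 ^ (i + 1) := be_lt (i + 1) (by omega)
  obtain ⟨b1, l1⟩ := IH M (by omega)
  obtain ⟨b2, l2⟩ := IH (M + 4 ^ i) (by omega)
  have hrec : ∀ D, w (M + 4 ^ (i + 1)) D =
      (if 4 ^ i ≤ D then w (M + 4 ^ i) (D - 4 ^ i) else 0) +
      (if 4 ^ (i + 1) ≤ D then w M (D - 4 ^ (i + 1)) else 0) := by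
    intro D
    have := hw (2 * i) M D
    rw [pow_even, ← e4] at this
    exact this
  have ad : ∀ u, al (u + 4 ^ i) + be (u + 4 ^ i) < al u + be u + 2 ^ i ∨
      (al (u + 4 ^ i) + be (u + 4 ^ i) = al u + be u + 2 ^ i ∧ be (u + 4 ^ i) ≤ be u) := by
    intro u
    have := kadd u (4 ^ i)
    obtain ⟨e3, e5⟩ := add_even i 0 (by simp)
    rw [zero_add, al_zero] at e3
    rw [zero_add, be_zero] at e5
    omega
  have ad4 : ∀ u, al (u + 4 ^ (i + 1)) + be (u + 4 ^ (i + 1)) < al u + be u + 2 * 2 ^ i ∨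
      (al (u + 4 ^ (i + 1)) + be (u + 4 ^ (i + 1)) = al u + be u + 2 * 2 ^ i ∧
        be (u + 4 ^ (i + 1)) ≤ be u) := by
    intro u
    have := kadd u (4 ^ (i + 1))
    obtain ⟨e3, e5⟩ := add_even (i + 1) 0 (by simp)
    rw [zero_add, al_zero] at e3
    rw [zero_add, be_zero] at e5
    omega
  -- first summand
  have F1 : ∀ E, 4 ^ i ≤ E → w (M + 4 ^ i) (E - 4 ^ i) ≠ 0 →
      al E + be E + 1 < al M + be M + 2 * 2 ^ i ∨
      (al E + be E + 1 = al M + be M + 2 * 2 ^ i ∧ be E ≤ be M) := by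
    intro E hE h
    have h1 := b2 _ h
    have h2 := ad (E - 4 ^ i)
    rw [Nat.sub_add_cancel hE] at h2
    have h3 := ad M
    omega
  have F2 : ∀ E, 4 ^ (i + 1) ≤ E → w M (E - 4 ^ (i + 1)) ≠ 0 →
      al E + be E + 1 < al M + be M + 2 * 2 ^ i ∨
      (al E + be E + 1 = al M + be M + 2 * 2 ^ i ∧ be E ≤ be M) := by
    intro E hE h
    have h1 := b1 _ h
    have h2 := ad4 (E - 4 ^ (i + 1))
    rw [Nat.sub_add_cancel hE] at h2
    omega
  refine ⟨?_, ?_⟩
  · intro E hE
    rw [hrec] at hE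
    rw [kM1, kM2, e2]
    by_cases c1 : 4 ^ i ≤ E ∧ w (M + 4 ^ i) (E - 4 ^ i) ≠ 0
    · have := F1 E c1.1 c1.2
      omega
    by_cases c2 : 4 ^ (i + 1) ≤ E ∧ w M (E - 4 ^ (i + 1)) ≠ 0
    · have := F2 E c2.1 c2.2
      omega
    exfalso
    apply hE
    have z1 : (if 4 ^ i ≤ E then w (M + 4 ^ i) (E - 4 ^ i) else 0) = 0 := by
      split_ifs with h
      · by_contra h'; exact c1 ⟨h, h'⟩
      · rfl
    have z2 : (if 4 ^ (i + 1) ≤ E then w M (E - 4 ^ (i + 1)) else 0) = 0 := by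
      split_ifs with h
      · by_contra h'; exact c2 ⟨h, h'⟩
      · rfl
    rw [z1, z2, add_zero]
  · intro D hD1 hD2
    rw [kM1, e2] at hD1
    rw [kM2] at hD2
    rw [hrec]
    rcases Nat.eq_zero_or_pos (al M) with h0 | h0
    · -- second summand vanishes
      have hlt : D < 4 ^ (i + 1) := lt_four (i + 1) (by omega) (by omega)
      rw [if_neg (c := 4 ^ (i + 1) ≤ D) (by omega), add_zero]
      obtain ⟨E, hE1, hE2⟩ := code_surj (2 ^ i - 1) (be M)
      have hb : (E / 4 ^ i) % 2 = 0 := by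
        rw [← al_bit, hE1, Nat.div_eq_of_lt (by omega)]
      obtain ⟨g1, g2⟩ := add_even i E hb
      have hED : E + 4 ^ i = D := code_inj (by omega) (by omega)
      rw [if_pos (by omega)]
      have : D - 4 ^ i = E := by omega
      rw [this]
      have hm : (M / 4 ^ i) % 2 = 0 := by rw [← al_bit, h0]; simp
      obtain ⟨g3, g4⟩ := add_even i M hm
      exact l2 E (by omega) (by omega)
    · -- first summand vanishes
      obtain ⟨E, hE1, hE2⟩ := code_surj (al M - 1) (be M)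
      have hb : (E / 4 ^ (i + 1)) % 2 = 0 := by
        rw [← al_bit, hE1, Nat.div_eq_of_lt (by omega)]
      obtain ⟨g1, g2⟩ := add_even (i + 1) E hb
      have hED : E + 4 ^ (i + 1) = D := code_inj (by omega) (by omega)
      have z1 : (if 4 ^ i ≤ D then w (M + 4 ^ i) (D - 4 ^ i) else 0) = 0 := by
        split_ifs with h
        · by_contra h'
          have c1 := b2 _ h'
          have hDE : D - 4 ^ i + 4 ^ i = D := Nat.sub_add_cancel h
          have c2 := ad (D - 4 ^ i)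
          rw [hDE] at c2
          have c3 := ad M
          -- both bits are free
          have m0 : (M / 4 ^ i) % 2 = 0 := by
            by_contra hc
            have := add_even_set i M (by omega)
            omega
          have d0 : ((D - 4 ^ i) / 4 ^ i) % 2 = 0 := by
            by_contra hc
            have := add_even_set i (D - 4 ^ i) (by omega)
            rw [hDE] at this
            omega
          obtain ⟨g3, g4⟩ := add_even i M m0
          obtain ⟨g5, g6⟩ := add_even i (D - 4 ^ i) d0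
          rw [hDE] at g5 g6
          rw [← al_bit] at m0 d0
          have s1 : al M < 2 ^ i := by
            by_contra hc
            have : al M / 2 ^ i = 1 := by
              apply Nat.div_eq_of_lt_le <;> omega
            omega
          have s2 : al (D - 4 ^ i) / 2 ^ i = 1 := by
            apply Nat.div_eq_of_lt_le <;> omega
          omega
        · rfl
      rw [z1, zero_add, if_pos (by omega)]
      have : D - 4 ^ (i + 1) = E := by omega
      rw [this]
      exact l1 E (by omega) (by omega)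

theorem step3_odd {w : ℕ → ℕ → ZMod 2} (hw : Rec3 w) (i M : ℕ) (hM : M < 2 * 4 ^ (i + 1))
    (IH : ∀ K < M + 2 * 4 ^ (i + 1), C3 w K) : C3 w (M + 2 * 4 ^ (i + 1)) := by
  have hp : 0 < 4 ^ i := by positivity
  have hq : 0 < 2 ^ i := by positivity
  have e4 : 4 ^ (i + 1) = 4 * 4 ^ i := pow_succ' 4 i
  have e2 : 2 ^ (i + 1) = 2 * 2 ^ i := pow_succ' 2 i
  obtain ⟨kM1, kM2⟩ := add_odd (i + 1) M (by rw [Nat.div_eq_of_lt hM])
  have bM : be M < 2 ^ (i + 1) := be_lt (i + 1) hM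
  obtain ⟨b1, l1⟩ := IH M (by omega)
  obtain ⟨b2, l2⟩ := IH (M + 2 * 4 ^ i) (by omega)
  have hrec : ∀ D, w (M + 2 * 4 ^ (i + 1)) D =
      (if 2 * 4 ^ i ≤ D then w (M + 2 * 4 ^ i) (D - 2 * 4 ^ i) else 0) +
      (if 2 * 4 ^ (i + 1) ≤ D then w M (D - 2 * 4 ^ (i + 1)) else 0) := by
    intro D
    have := hw (2 * i + 1) M D
    have e5 : 2 ^ (2 * i + 1) = 2 * 4 ^ i := by rw [pow_succ', pow_even]
    have e6 : 4 * (2 * 4 ^ i) = 2 * 4 ^ (i + 1) := by rw [e4]; ring
    rw [e5, e6] at this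
    exact this
  have ad : ∀ u, al (u + 2 * 4 ^ i) + be (u + 2 * 4 ^ i) < al u + be u + 2 ^ i ∨
      (al (u + 2 * 4 ^ i) + be (u + 2 * 4 ^ i) = al u + be u + 2 ^ i ∧
        be (u + 2 * 4 ^ i) ≤ be u + 2 ^ i) := by
    intro u
    have := kadd u (2 * 4 ^ i)
    obtain ⟨e3, e5⟩ := add_odd i 0 (by simp)
    rw [zero_add, al_zero] at e3
    rw [zero_add, be_zero] at e5
    omega
  have ad4 : ∀ u, al (u + 2 * 4 ^ (i + 1)) + be (u + 2 * 4 ^ (i + 1)) <
      al u + be u + 2 * 2 ^ i ∨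
      (al (u + 2 * 4 ^ (i + 1)) + be (u + 2 * 4 ^ (i + 1)) = al u + be u + 2 * 2 ^ i ∧
        be (u + 2 * 4 ^ (i + 1)) ≤ be u + 2 * 2 ^ i) := by
    intro u
    have := kadd u (2 * 4 ^ (i + 1))
    obtain ⟨e3, e5⟩ := add_odd (i + 1) 0 (by simp)
    rw [zero_add, al_zero] at e3
    rw [zero_add, be_zero] at e5
    omega
  have F1 : ∀ E, 2 * 4 ^ i ≤ E → w (M + 2 * 4 ^ i) (E - 2 * 4 ^ i) ≠ 0 →
      al E + be E + 1 < al M + be M + 2 * 2 ^ i ∨
      (al E + be E + 1 = al M + be M + 2 * 2 ^ i ∧ be E ≤ be M + 2 * 2 ^ i) := by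
    intro E hE h
    have h1 := b2 _ h
    have h2 := ad (E - 2 * 4 ^ i)
    rw [Nat.sub_add_cancel hE] at h2
    have h3 := ad M
    omega
  have F2 : ∀ E, 2 * 4 ^ (i + 1) ≤ E → w M (E - 2 * 4 ^ (i + 1)) ≠ 0 →
      al E + be E + 1 < al M + be M + 2 * 2 ^ i ∨
      (al E + be E + 1 = al M + be M + 2 * 2 ^ i ∧ be E ≤ be M + 2 * 2 ^ i) := by
    intro E hE h
    have h1 := b1 _ h
    have h2 := ad4 (E - 2 * 4 ^ (i + 1))
    rw [Nat.sub_add_cancel hE] at h2
    omega
  refine ⟨?_, ?_⟩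
  · intro E hE
    rw [hrec] at hE
    rw [kM1, kM2, e2]
    by_cases c1 : 2 * 4 ^ i ≤ E ∧ w (M + 2 * 4 ^ i) (E - 2 * 4 ^ i) ≠ 0
    · have := F1 E c1.1 c1.2
      omega
    by_cases c2 : 2 * 4 ^ (i + 1) ≤ E ∧ w M (E - 2 * 4 ^ (i + 1)) ≠ 0
    · have := F2 E c2.1 c2.2
      omega
    exfalso
    apply hE
    have z1 : (if 2 * 4 ^ i ≤ E then w (M + 2 * 4 ^ i) (E - 2 * 4 ^ i) else 0) = 0 := by
      split_ifs with h
      · by_contra h'; exact c1 ⟨h, h'⟩
      · rfl
    have z2 : (if 2 * 4 ^ (i + 1) ≤ E then w M (E - 2 * 4 ^ (i + 1)) else 0) = 0 := by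
      split_ifs with h
      · by_contra h'; exact c2 ⟨h, h'⟩
      · rfl
    rw [z1, z2, add_zero]
  · intro D hD1 hD2
    rw [kM1] at hD1
    rw [kM2, e2] at hD2
    rw [hrec]
    obtain ⟨E, hE1, hE2⟩ := code_surj (al M - 1) (be M)
    have hb : (E / (2 * 4 ^ (i + 1))) % 2 = 0 := by
      rw [← be_bit, hE2, Nat.div_eq_of_lt (by omega)]
    obtain ⟨g1, g2⟩ := add_odd (i + 1) E hb
    have hED : E + 2 * 4 ^ (i + 1) = D := code_inj (by omega) (by omega)
    have z1 : (if 2 * 4 ^ i ≤ D then w (M + 2 * 4 ^ i) (D - 2 * 4 ^ i) else 0) = 0 := by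
      split_ifs with h
      · by_contra h'
        have c1 := b2 _ h'
        have hDE : D - 2 * 4 ^ i + 2 * 4 ^ i = D := Nat.sub_add_cancel h
        have c2 := ad (D - 2 * 4 ^ i)
        rw [hDE] at c2
        have c3 := ad M
        have m0 : (M / (2 * 4 ^ i)) % 2 = 0 := by
          by_contra hc
          have := add_odd_set i M (by omega)
          omega
        have d0 : ((D - 2 * 4 ^ i) / (2 * 4 ^ i)) % 2 = 0 := by
          by_contra hc
          have := add_odd_set i (D - 2 * 4 ^ i) (by omega)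
          rw [hDE] at this
          omega
        obtain ⟨g3, g4⟩ := add_odd i M m0
        obtain ⟨g5, g6⟩ := add_odd i (D - 2 * 4 ^ i) d0
        rw [hDE] at g5 g6
        rw [← be_bit] at m0 d0
        have s1 : be M < 2 ^ i := by
          by_contra hc
          have : be M / 2 ^ i = 1 := by
            apply Nat.div_eq_of_lt_le <;> omega
          omega
        have s2 : be (D - 2 * 4 ^ i) / 2 ^ i = 1 := by
          apply Nat.div_eq_of_lt_le <;> omega
        omega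
      · rfl
    rw [z1, zero_add, if_pos (by omega)]
    have : D - 2 * 4 ^ (i + 1) = E := by omega
    rw [this]
    exact l1 E (by omega) (by omega)

theorem two_pow_cases (K : ℕ) (hK : 0 < K) :
    (∃ i M, M < 4 ^ i ∧ K = M + 4 ^ i) ∨ ∃ i M, M < 2 * 4 ^ i ∧ K = M + 2 * 4 ^ i := by
  have h1 : 2 ^ Nat.log 2 K ≤ K := Nat.pow_log_le_self 2 (by omega)
  have h2 : K < 2 ^ (Nat.log 2 K + 1) := Nat.lt_pow_succ_log_self (by norm_num) K
  rw [pow_succ] at h2
  rcases Nat.even_or_odd' (Nat.log 2 K) with ⟨i, hi | hi⟩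
  · left
    rw [hi, pow_even] at h1 h2
    exact ⟨i, K - 4 ^ i, by omega, by omega⟩
  · right
    rw [hi, pow_succ, pow_even] at h1 h2
    exact ⟨i, K - 2 * 4 ^ i, by omega, by omega⟩

theorem P3 {w : ℕ → ℕ → ZMod 2} (hw : Rec3 w) (h0 : ∀ D, w 0 D = 0)
    (h1 : ∀ D, w 1 D = if D = 0 then 1 else 0) (h2 : ∀ D, w 2 D = 0)
    (h3 : ∀ D, w 3 D = if D = 2 then 1 else 0) (K : ℕ) : C3 w K := by
  induction K using Nat.strong_induction_on with
  | _ K ih =>
    have a1 : al 1 = 1 := al_one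
    have b1 : be 1 = 0 := be_one
    have a2 : al 2 = 0 := by rw [al_rec]; simp
    have b2 : be 2 = 1 := by rw [be_rec]; simp
    have a3 : al 3 = 1 := by rw [al_rec]; simp
    have b3 : be 3 = 1 := by rw [be_rec]; simp
    by_cases hK : K < 4
    · interval_cases K
      · refine ⟨fun E hE => absurd (h0 E) hE, fun D hD => ?_⟩
        rw [al_zero] at hD
        omega
      · refine ⟨fun E hE => ?_, fun D hD1 hD2 => ?_⟩
        · rw [h1] at hE
          have : E = 0 := by by_contra h; rw [if_neg h] at hE; exact hE rfl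
          subst this
          rw [al_zero, be_zero, a1, b1]; right; omega
        · have : D = 0 := code_inj (by rw [al_zero]; omega) (by rw [be_zero]; omega)
          rw [h1, if_pos this]
      · refine ⟨fun E hE => absurd (h2 E) hE, fun D hD => ?_⟩
        rw [a2] at hD
        omega
      · refine ⟨fun E hE => ?_, fun D hD1 hD2 => ?_⟩
        · rw [h3] at hE
          have : E = 2 := by by_contra h; rw [if_neg h] at hE; exact hE rfl
          subst this
          rw [a2, b2, a3, b3]; right; omega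
        · have : D = 2 := code_inj (by rw [a2]; omega) (by rw [b2]; omega)
          rw [h3, if_pos this]
    · rcases two_pow_cases K (by omega) with ⟨i, M, hM, rfl⟩ | ⟨i, M, hM, rfl⟩
      · obtain ⟨i, rfl⟩ : ∃ i', i = i' + 1 := by
          refine ⟨i - 1, ?_⟩
          rcases Nat.eq_zero_or_pos i with h | h
          · subst h; simp at hM hK; omega
          · omega
        exact step3_even hw i M hM ih
      · obtain ⟨i, rfl⟩ : ∃ i', i = i' + 1 := by
          refine ⟨i - 1, ?_⟩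
          rcases Nat.eq_zero_or_pos i with h | h
          · subst h; simp at hM hK; omega
          · omega
        exact step3_odd hw i M hM ih

end Vale.Agent.P022.H472.NS
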