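import Vale.Agent.P022.H472.L3.NS5

/-!
# The theorem of Nicolas and Serre: cogeneration, and operators commuting with `T₃` and `T₅`

`b K` stands for `Δ^(2K+1)`, `S` for `T₃`, `T` for `T₅`.
-/

namespace Vale.Agent.P022.H472.NS

open Finset

variable {M : Type*} [AddCommGroup M] [Module (ZMod 2) M]

theorem expand (b : Module.Basis ℕ (ZMod 2) M) (φ : M →ₗ[ZMod 2] ZMod 2) (f : M) :
    φ f = ∑ K ∈ (b.repr f).support, b.repr f K * φ (b K) := by
  conv_lhs => rw [← b.linearCombination_repr f]
  rw [Finsupp.linearCombination_apply, Finsupp.sum, map_sum]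
  refine Finset.sum_congr rfl fun K _ => ?_
  rw [map_smul, smul_eq_mul]

/-- the pairing with the operators `S ^ a * T ^ c` -/
noncomputable def pr (b : Module.Basis ℕ (ZMod 2) M) (S T : Module.End (ZMod 2) M) (a c : ℕ) :
    M →ₗ[ZMod 2] ZMod 2 := b.coord 0 ∘ₗ (S ^ a * T ^ c)

theorem pr_apply (b : Module.Basis ℕ (ZMod 2) M) (S T : Module.End (ZMod 2) M) (a c : ℕ) (f : M) :
    pr b S T a c f = b.repr ((S ^ a * T ^ c) f) 0 := rfl

section

variable (b : Module.Basis ℕ (ZMod 2) M) {S T : Module.End (ZMod 2) M}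

theorem top (h3 : ∀ K, C3 (fun K D => b.repr (S (b K)) D) K)
    (h5 : ∀ K, C5 (fun K D => b.repr (T (b K)) D) K) :
    ∀ n a c, a + c = n → ∀ K,
    ((al K + be K < a + c ∨ (al K + be K = a + c ∧ be K < c)) → pr b S T a c (b K) = 0) ∧
    (al K = a → be K = c → pr b S T a c (b K) = 1) := by
  intro n
  induction n with
  | zero =>
    intro a c h K
    obtain ⟨rfl, rfl⟩ : a = 0 ∧ c = 0 := by omega
    refine ⟨fun h => by omega, fun h1 h2 => ?_⟩
    have : K = 0 := code_inj (by rw [h1, al_zero]) (by rw [h2, be_zero])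
    subst this
    rw [pr_apply]
    simp
  | succ n ih =>
    intro a c h K
    rcases Nat.eq_zero_or_pos c with hc | hc
    · subst hc
      obtain ⟨a, rfl⟩ : ∃ a', a = a' + 1 := ⟨a - 1, by omega⟩
      have e1 : pr b S T (a + 1) 0 (b K) = pr b S T a 0 (S (b K)) := by
        rw [pr_apply, pr_apply, pow_zero, mul_one, mul_one, pow_succ, Module.End.mul_apply]
      rw [e1, expand b]
      obtain ⟨w1, w2⟩ := h3 K
      have low : ∀ E, b.repr (S (b K)) E ≠ 0 →
          (al K + be K < a + 1 ∨ (al K + be K = a + 1 ∧ (be K < 0 ∨ al E ≠ a ∨ be E ≠ 0) ∧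
            be K = 0)) → pr b S T a 0 (b E) = 0 := by
        intro E hE hK
        have := w1 E hE
        exact (ih a 0 (by omega) E).1 (by omega)
      refine ⟨fun hK => ?_, fun h1 h2 => ?_⟩
      · refine Finset.sum_eq_zero fun E hE => ?_
        rw [low E (Finsupp.mem_support_iff.1 hE) (by omega), mul_zero]
      · obtain ⟨E0, a0, b0⟩ := code_surj a 0
        have hE0 : b.repr (S (b K)) E0 = 1 := w2 E0 (by omega) (by omega)
        rw [Finset.sum_eq_single_of_mem E0 (Finsupp.mem_support_iff.2 (by rw [hE0]; exact one_ne_zero)),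
          hE0, one_mul]
        · exact (ih a 0 (by omega) E0).2 a0 b0
        · intro E hE hne
          rw [low E (Finsupp.mem_support_iff.1 hE), mul_zero]
          refine Or.inr ⟨by omega, ?_, h2⟩
          by_contra hcon
          push Not at hcon
          exact hne (code_inj (by omega) (by omega))
    · obtain ⟨c, rfl⟩ : ∃ c', c = c' + 1 := ⟨c - 1, by omega⟩
      have e1 : pr b S T a (c + 1) (b K) = pr b S T a c (T (b K)) := by
        rw [pr_apply, pr_apply, pow_succ, ← mul_assoc, Module.End.mul_apply]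
      rw [e1, expand b]
      obtain ⟨w1, w2⟩ := h5 K
      refine ⟨fun hK => ?_, fun h1 h2 => ?_⟩
      · refine Finset.sum_eq_zero fun E hE => ?_
        have := w1 E (Finsupp.mem_support_iff.1 hE)
        rw [(ih a c (by omega) E).1 (by omega), mul_zero]
      · obtain ⟨E0, a0, b0⟩ := code_surj a c
        have hE0 : b.repr (T (b K)) E0 = 1 := w2 E0 (by omega) (by omega)
        rw [Finset.sum_eq_single_of_mem E0 (Finsupp.mem_support_iff.2 (by rw [hE0]; exact one_ne_zero)),
          hE0, one_mul]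
        · exact (ih a c (by omega) E0).2 a0 b0
        · intro E hE hne
          have := w1 E (Finsupp.mem_support_iff.1 hE)
          rw [(ih a c (by omega) E).1, mul_zero]
          by_contra hcon
          exact hne (code_inj (by omega) (by omega))

variable (h3 : ∀ K, C3 (fun K D => b.repr (S (b K)) D) K)
  (h5 : ∀ K, C5 (fun K D => b.repr (T (b K)) D) K)

include h3 h5

theorem pr_zero {a c K : ℕ} (h : al K + be K < a + c ∨ (al K + be K = a + c ∧ be K < c)) :
    pr b S T a c (b K) = 0 := (top b h3 h5 (a + c) a c rfl K).1 h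

theorem pr_one (K : ℕ) : pr b S T (al K) (be K) (b K) = 1 :=
  (top b h3 h5 _ _ _ rfl K).2 rfl rfl

/-- **cogeneration** -/
theorem cogen {f : M} (hf : ∀ i j, b.repr ((S ^ i * T ^ j) f) 0 = 0) : f = 0 := by
  by_contra hne
  have hs : (b.repr f).support.Nonempty := by
    rw [Finsupp.support_nonempty_iff]
    intro h
    exact hne (by simpa using h)
  obtain ⟨K, hK, hmax⟩ := Finset.exists_max_image (b.repr f).support
    (fun K => toLex (al K + be K, be K)) hs
  have h := hf (al K) (be K)
  rw [← pr_apply, expand b, Finset.sum_eq_single_of_mem K hK, pr_one b h3 h5, mul_one] at h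
  · exact (Finsupp.mem_support_iff.1 hK) h
  · intro E hE hEK
    rw [pr_zero b h3 h5, mul_zero]
    have := hmax E hE
    rw [Prod.Lex.toLex_le_toLex] at this
    have hne : ¬ (al E = al K ∧ be E = be K) := fun h => hEK (code_inj h.1 h.2)
    simp only at this
    omega

end

/-- the exponents before `(i, j)` -/
def before (i j : ℕ) : Finset (ℕ × ℕ) :=
  (range (i + j + 1) ×ˢ range (i + j + 1)).filter fun p =>
    p.1 + p.2 < i + j ∨ (p.1 + p.2 = i + j ∧ p.2 < j)

theorem mem_before {i j : ℕ} {p : ℕ × ℕ} :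
    p ∈ before i j ↔ p.1 + p.2 < i + j ∨ (p.1 + p.2 = i + j ∧ p.2 < j) := by
  rw [before, Finset.mem_filter, Finset.mem_product, mem_range, mem_range]
  constructor
  · exact fun h => h.2
  · exact fun h => ⟨⟨by omega, by omega⟩, h⟩

/-- the coefficients of an operator commuting with `S` and `T` -/
noncomputable def cc (μ : ℕ → ℕ → ZMod 2) (P : ℕ → ℕ → ℕ → ℕ → ZMod 2) (i j : ℕ) : ZMod 2 :=
  μ i j - ∑ p ∈ (before i j).attach, cc μ P p.1.1 p.1.2 * P p.1.1 p.1.2 i j
termination_by (i + j, j)
decreasing_by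
  have := mem_before.1 p.2
  rw [Prod.lex_def]
  simpa using this

theorem cc_eq (μ : ℕ → ℕ → ZMod 2) (P : ℕ → ℕ → ℕ → ℕ → ZMod 2) (i j : ℕ) :
    cc μ P i j = μ i j - ∑ p ∈ before i j, cc μ P p.1 p.2 * P p.1 p.2 i j := by
  rw [cc]
  congr 1
  exact Finset.sum_attach (before i j) fun p => cc μ P p.1 p.2 * P p.1 p.2 i j

/-- every functional is a power series in `S`, `T` applied to the coefficient of `b 0` -/
theorem exists_coeff (b : Module.Basis ℕ (ZMod 2) M) {S T : Module.End (ZMod 2) M}
    (h3 : ∀ K, C3 (fun K D => b.repr (S (b K)) D) K)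
    (h5 : ∀ K, C5 (fun K D => b.repr (T (b K)) D) K) (φ : M →ₗ[ZMod 2] ZMod 2) :
    ∃ c : ℕ → ℕ → ZMod 2, ∀ f N, (∀ i j, N ≤ i + j → (S ^ i * T ^ j) f = 0) →
      φ f = ∑ i ∈ range N, ∑ j ∈ range N, c i j * b.repr ((S ^ i * T ^ j) f) 0 := by
  choose k hk1 hk2 using code_surj
  have hkk : ∀ K, k (al K) (be K) = K := fun K => code_inj (hk1 _ _) (hk2 _ _)
  set c := cc (fun i j => φ (b (k i j))) (fun i j i' j' => pr b S T i j (b (k i' j'))) with hc
  have key : ∀ K L, al K + be K < L →
      φ (b K) = ∑ p ∈ range L ×ˢ range L, c p.1 p.2 * pr b S T p.1 p.2 (b K) := by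
    intro K L hL
    have h1 := cc_eq (fun i j => φ (b (k i j))) (fun i j i' j' => pr b S T i j (b (k i' j')))
      (al K) (be K)
    simp only [hkk] at h1
    rw [← hc] at h1
    have h2 : insert (al K, be K) (before (al K) (be K)) ⊆ range L ×ˢ range L := by
      intro p hp
      rw [Finset.mem_product, mem_range, mem_range]
      rcases Finset.mem_insert.1 hp with rfl | hp
      · exact ⟨by simp only; omega, by simp only; omega⟩
      · have := mem_before.1 hp
        omega
    rw [← Finset.sum_subset h2, Finset.sum_insert, pr_one b h3 h5, mul_one]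
    · rw [h1]; ring
    · intro h
      have := mem_before.1 h
      simp only at this
      omega
    · intro p _ hp
      rw [pr_zero b h3 h5, mul_zero]
      rw [Finset.mem_insert, mem_before] at hp
      push Not at hp
      obtain ⟨hp1, hp2, hp3⟩ := hp
      have hne : ¬ (p.1 = al K ∧ p.2 = be K) := fun h => hp1 (Prod.ext h.1 h.2)
      by_contra hcon
      push Not at hcon
      apply hne
      by_cases he : p.1 + p.2 = al K + be K
      · have := hp3 he
        have := hcon.2 he.symm
        omega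
      · omega
  refine ⟨c, fun f N hN => ?_⟩
  obtain ⟨L, hNL, hL⟩ : ∃ L, N ≤ L ∧ ∀ K ∈ (b.repr f).support, al K + be K < L := by
    refine ⟨N + (b.repr f).support.sup (fun K => al K + be K + 1), by omega, fun K hK => ?_⟩
    have := Finset.le_sup (f := fun K => al K + be K + 1) hK
    omega
  have e1 : φ f = ∑ p ∈ range L ×ˢ range L, c p.1 p.2 * pr b S T p.1 p.2 f := by
    rw [expand b]
    have : ∀ p ∈ range L ×ˢ range L, c p.1 p.2 * pr b S T p.1 p.2 f =
        ∑ K ∈ (b.repr f).support, b.repr f K * (c p.1 p.2 * pr b S T p.1 p.2 (b K)) := by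
      intro p _
      rw [expand b (pr b S T p.1 p.2) f, Finset.mul_sum]
      exact Finset.sum_congr rfl fun K _ => by ring
    rw [Finset.sum_congr rfl this, Finset.sum_comm]
    refine Finset.sum_congr rfl fun K hK => ?_
    rw [← Finset.mul_sum, ← key K L (hL K hK)]
  have hsub : range N ×ˢ range N ⊆ range L ×ˢ range L :=
    Finset.product_subset_product (Finset.range_subset_range.2 hNL)
      (Finset.range_subset_range.2 hNL)
  rw [e1, ← Finset.sum_subset hsub, Finset.sum_product]
  · rfl
  · intro p _ hp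
    rw [Finset.mem_product, mem_range, mem_range] at hp
    rw [pr_apply, hN p.1 p.2 (by omega)]
    simp

/-- **an operator commuting with `T₃` and `T₅` is a power series in `T₃` and `T₅`** -/
theorem commuting (b : Module.Basis ℕ (ZMod 2) M) {S T : Module.End (ZMod 2) M}
    (hST : Commute S T)
    (h3 : ∀ K, C3 (fun K D => b.repr (S (b K)) D) K)
    (h5 : ∀ K, C5 (fun K D => b.repr (T (b K)) D) K) (U : Module.End (ZMod 2) M)
    (hS : Commute U S) (hT : Commute U T) :
    ∃ c : ℕ → ℕ → ZMod 2, ∀ f N, (∀ i j, N ≤ i + j → (S ^ i * T ^ j) f = 0) →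
      U f = ∑ i ∈ range N, ∑ j ∈ range N, c i j • (S ^ i * T ^ j) f := by
  obtain ⟨c, hc⟩ := exists_coeff b h3 h5 (b.coord 0 ∘ₗ U)
  refine ⟨c, fun f N hN => ?_⟩
  rw [← sub_eq_zero]
  refine cogen b h3 h5 fun i j => ?_
  have hcomm : ∀ p q, Commute (S ^ i * T ^ j) (S ^ p * T ^ q) := fun p q =>
    (((Commute.refl S).pow_pow i p).mul_right (hST.pow_pow i q)).mul_left
      ((hST.symm.pow_pow j p).mul_right ((Commute.refl T).pow_pow j q))
  have hN' : ∀ p q, N ≤ p + q → (S ^ p * T ^ q) ((S ^ i * T ^ j) f) = 0 := by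
    intro p q h
    rw [← Module.End.mul_apply, ← (hcomm p q).eq, Module.End.mul_apply, hN p q h, map_zero]
  have h1 := hc ((S ^ i * T ^ j) f) N hN'
  have hU : Commute U (S ^ i * T ^ j) := (hS.pow_right i).mul_right (hT.pow_right j)
  have h2 : (b.coord 0 ∘ₗ U) ((S ^ i * T ^ j) f) = b.repr ((S ^ i * T ^ j) (U f)) 0 := by
    have : U ((S ^ i * T ^ j) f) = (S ^ i * T ^ j) (U f) := by
      rw [← Module.End.mul_apply, hU.eq, Module.End.mul_apply]
    rw [LinearMap.comp_apply, this]
    rfl
  rw [map_sub, map_sub, Finsupp.sub_apply, ← h2, h1, sub_eq_zero, map_sum]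
  simp only [map_sum, map_smul, Finsupp.coe_finsetSum, Finset.sum_apply, Finsupp.smul_apply,
    smul_eq_mul]
  refine Finset.sum_congr rfl fun p _ => Finset.sum_congr rfl fun q _ => ?_
  rw [← Module.End.mul_apply, ← Module.End.mul_apply, (hcomm p q).eq]

end Vale.Agent.P022.H472.NS
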