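import Vale.Agent.P022.H472.L3.NS6
import Vale.Agent.P022.H30.Glue

/-!
# The theorem of Nicolas and Serre on the span of the odd powers of `Δ` modulo two
-/

namespace Vale.Agent.P022.H472.NS

open Polynomial Vale.Agent.P022.H30

theorem D_pow_mem (K : ℕ) : D ^ (2 * K + 1) ∈ Modd :=
  Submodule.subset_span ⟨2 * K + 1, by omega, rfl⟩

/-- the powers `D ^ (2 K + 1)` as elements of `Modd` -/
noncomputable def vO (K : ℕ) : Modd := ⟨D ^ (2 * K + 1), D_pow_mem K⟩

theorem vO_indep : LinearIndependent (ZMod 2) vO := by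
  have h1 : LinearIndependent (ZMod 2) (fun K : ℕ => (X ^ (2 * K + 1) : (ZMod 2)[X])) := by
    have h := (basisMonomials (ZMod 2)).linearIndependent.comp (fun K : ℕ => 2 * K + 1)
      (fun a b h => by simp only at h; omega)
    have e : (fun K : ℕ => (X ^ (2 * K + 1) : (ZMod 2)[X])) =
        (basisMonomials (ZMod 2)) ∘ (fun K : ℕ => 2 * K + 1) := by
      funext K
      rw [Function.comp_apply, coe_basisMonomials]
      exact (monomial_one_right_eq_X_pow _).symm
    rw [e]
    exact h
  have h2 := h1.map' ev.toLinearMap (LinearMap.ker_eq_bot.2 ev_injective)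
  refine LinearIndependent.of_comp Modd.subtype ?_
  have e : (Modd.subtype ∘ vO : ℕ → PowerSeries (ZMod 2)) =
      (ev.toLinearMap ∘ fun K : ℕ => (X ^ (2 * K + 1) : (ZMod 2)[X])) := by
    funext K
    rw [Function.comp_apply, Function.comp_apply, AlgHom.toLinearMap_apply, ev_X_pow]
    rfl
  rw [e]
  exact h2

theorem vO_span : ⊤ ≤ Submodule.span (ZMod 2) (Set.range vO) := by
  rintro ⟨F, hF⟩ -
  have h : F ∈ (Submodule.span (ZMod 2) (Set.range vO)).map Modd.subtype := by
    have h2 : Modd ≤ (Submodule.span (ZMod 2) (Set.range vO)).map Modd.subtype := by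
      rw [Submodule.map_span]
      refine Submodule.span_mono ?_
      rintro G ⟨n, hn, rfl⟩
      exact ⟨vO (n / 2), ⟨n / 2, rfl⟩, by
        change D ^ (2 * (n / 2) + 1) = D ^ n
        congr 1
        omega⟩
    exact h2 hF
  obtain ⟨G, hG, e⟩ := h
  have : G = ⟨F, hF⟩ := Subtype.ext e
  rw [← this]
  exact hG

/-- the basis `D ^ (2 K + 1)` -/
noncomputable def bO : Module.Basis ℕ (ZMod 2) Modd := Module.Basis.mk vO_indep vO_span

theorem bO_apply (K : ℕ) : bO K = vO K := by
  rw [bO, Module.Basis.mk_apply]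

theorem coe_bO (K : ℕ) : ((bO K : Modd) : PowerSeries (ZMod 2)) = D ^ (2 * K + 1) := by
  rw [bO_apply]; rfl

theorem odd_eq_sum {f : (ZMod 2)[X]} (hf : IsOddP f) :
    f = ∑ K ∈ Finset.range (f.natDegree + 1), f.coeff (2 * K + 1) • (X ^ (2 * K + 1) : (ZMod 2)[X])
    := by
  ext n
  rw [finsetSum_coeff]
  have h1 : ∀ K, (f.coeff (2 * K + 1) • (X ^ (2 * K + 1) : (ZMod 2)[X])).coeff n =
      if n = 2 * K + 1 then f.coeff n else 0 := by
    intro K
    rw [coeff_smul, coeff_X_pow, smul_eq_mul]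
    split_ifs with h
    · rw [h, mul_one]
    · rw [mul_zero]
  rw [Finset.sum_congr rfl fun K _ => h1 K]
  by_cases hn : n % 2 = 1
  · by_cases hd : n ≤ f.natDegree
    · rw [Finset.sum_eq_single (n / 2)]
      · rw [if_pos (by omega)]
      · intro K _ hK
        rw [if_neg (by omega)]
      · intro h
        rw [Finset.mem_range] at h
        omega
    · rw [coeff_eq_zero_of_natDegree_lt (by omega)]
      symm
      exact Finset.sum_eq_zero fun K _ => by split_ifs <;> rfl
  · have h0 : f.coeff n = 0 := by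
      by_contra h
      exact hn (hf n (mem_support_iff.2 h))
    rw [h0]
    symm
    exact Finset.sum_eq_zero fun K _ => by split_ifs <;> rfl

theorem bO_repr {f : (ZMod 2)[X]} (hf : IsOddP f) {F : Modd}
    (hF : (F : PowerSeries (ZMod 2)) = ev f) (K : ℕ) : bO.repr F K = f.coeff (2 * K + 1) := by
  have h1 : F = ∑ K ∈ Finset.range (f.natDegree + 1), f.coeff (2 * K + 1) • bO K := by
    apply Subtype.ext
    rw [hF]
    conv_lhs => rw [odd_eq_sum hf]
    rw [map_sum, Submodule.coe_sum]
    refine Finset.sum_congr rfl fun K _ => ?_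
    rw [map_smul, ev_X_pow, Submodule.coe_smul, coe_bO]
  rw [h1, map_sum, Finset.sum_congr rfl fun K _ => map_smul _ _ _]
  simp only [Module.Basis.repr_self, Finsupp.coe_finsetSum, Finset.sum_apply, Finsupp.smul_apply,
    Finsupp.single_apply, smul_eq_mul, mul_ite, mul_one, mul_zero]
  rw [Finset.sum_ite_eq' (Finset.range (f.natDegree + 1)) K (fun i => f.coeff (2 * i + 1))]
  split_ifs with h
  · rfl
  · rw [Finset.mem_range] at h
    rw [coeff_eq_zero_of_natDegree_lt (by omega)]

theorem repr_op {u : ℕ → (ZMod 2)[X]} {l : ℕ} (hu : ∀ n, ev (u n) = hec l (D ^ n))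
    {S : Module.End (ZMod 2) Modd}
    (hS : ∀ f, ((S f : Modd) : PowerSeries (ZMod 2)) = hecL l (f : PowerSeries (ZMod 2)))
    (K E : ℕ) : bO.repr (S (bO K)) E = (u (2 * K + 1)).coeff (2 * E + 1) := by
  have h1 : ((S (bO K) : Modd) : PowerSeries (ZMod 2)) = ev (u (2 * K + 1)) := by
    rw [hS, coe_bO, hecL_apply, hu]
  obtain ⟨f, hf, hf'⟩ := exists_ev (S (bO K)).2
  have h2 : f = u (2 * K + 1) := ev_injective (hf'.trans h1)
  rw [← h2]
  exact bO_repr hf hf'.symm E

theorem coeff_one_pow (K : ℕ) :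
    PowerSeries.coeff 1 (D ^ (2 * K + 1)) = if K = 0 then 1 else 0 := by
  split_ifs with h
  · subst h
    rw [mul_zero, zero_add, pow_one, coeff_one_D]
  · obtain ⟨E, hE, -⟩ := D_eq
    rw [hE, mul_pow, PowerSeries.coeff_X_pow_mul', if_neg (by omega)]

theorem a1_eq (F : Modd) : a1 F = bO.repr F 0 := by
  have : a1 = bO.coord 0 := by
    refine bO.ext fun K => ?_
    change PowerSeries.coeff 1 ((bO K : Modd) : PowerSeries (ZMod 2)) = bO.repr (bO K) 0
    rw [coe_bO, coeff_one_pow, Module.Basis.repr_self, Finsupp.single_apply]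
  rw [this]
  rfl

section

variable {u v : ℕ → (ZMod 2)[X]} (hu : ∀ n, ev (u n) = hec 3 (D ^ n))
  (hv : ∀ n, ev (v n) = hec 5 (D ^ n))
  {S T : Module.End (ZMod 2) Modd}
  (hS : ∀ f, ((S f : Modd) : PowerSeries (ZMod 2)) = hecL 3 (f : PowerSeries (ZMod 2)))
  (hT : ∀ f, ((T f : Modd) : PowerSeries (ZMod 2)) = hecL 5 (f : PowerSeries (ZMod 2)))
  (h3 : ∀ K, C3 (fun K E => (u (2 * K + 1)).coeff (2 * E + 1)) K)
  (h5 : ∀ K, C5 (fun K E => (v (2 * K + 1)).coeff (2 * E + 1)) K)

include hu hS h3 in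
theorem c3_of (K : ℕ) : C3 (fun K E => bO.repr (S (bO K)) E) K := by
  have : (fun K E => bO.repr (S (bO K)) E) = fun K E => (u (2 * K + 1)).coeff (2 * E + 1) := by
    funext K E
    exact repr_op hu hS K E
  rw [this]
  exact h3 K

include hv hT h5 in
theorem c5_of (K : ℕ) : C5 (fun K E => bO.repr (T (bO K)) E) K := by
  have : (fun K E => bO.repr (T (bO K)) E) = fun K E => (v (2 * K + 1)).coeff (2 * E + 1) := by
    funext K E
    exact repr_op hv hT K E
  rw [this]
  exact h5 K

theorem comm_of (hS : ∀ f, ((S f : Modd) : PowerSeries (ZMod 2)) = hecL 3 (f : PowerSeries (ZMod 2)))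
    (hT : ∀ f, ((T f : Modd) : PowerSeries (ZMod 2)) = hecL 5 (f : PowerSeries (ZMod 2))) :
    Commute S T := by
  refine LinearMap.ext fun f => Subtype.ext ?_
  rw [Module.End.mul_apply, Module.End.mul_apply, hS, hT, hT, hS, hecL_apply, hecL_apply,
    hecL_apply, hecL_apply, hec_comm (by norm_num) (by norm_num) (by norm_num)]

include hu hv hS hT h3 h5

/-- **the hypothesis `ha` of chapter A** -/
theorem ha_of (f : Modd) (hf : ∀ i j, a1 ((S ^ i * T ^ j) f) = 0) : f = 0 :=
  cogen bO (c3_of hu hS h3) (c5_of hv hT h5) fun i j => by rw [← a1_eq]; exact hf i j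

/-- **an operator commuting with `T₃` and `T₅` is a power series in them** -/
theorem series_of (U : Module.End (ZMod 2) Modd) (h1 : Commute U S) (h2 : Commute U T) :
    ∃ c : ℕ → ℕ → ZMod 2, ∀ f N, Nil S T f N →
      U f = ∑ i ∈ Finset.range N, ∑ j ∈ Finset.range N, c i j • (S ^ i * T ^ j) f :=
  commuting bO (comm_of hS hT) (c3_of hu hS h3) (c5_of hv hT h5) U h1 h2

/-- the coefficients of order at most one are the first coefficients of `U (D)`, `U (D ^ 3)`,
`U (D ^ 5)` -/
theorem series_low (h20 : (u 5).coeff 1 = 0) (U : Module.End (ZMod 2) Modd) (c : ℕ → ℕ → ZMod 2)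
    (hc : ∀ f N, Nil S T f N →
      U f = ∑ i ∈ Finset.range N, ∑ j ∈ Finset.range N, c i j • (S ^ i * T ^ j) f) :
    c 0 0 = a1 (U (bO 0)) ∧ c 1 0 = a1 (U (bO 1)) ∧ c 0 1 = a1 (U (bO 2)) := by
  have q3 := c3_of hu hS h3
  have q5 := c5_of hv hT h5
  have a2 : al 2 = 0 := by rw [al_rec]; simp
  have b2 : be 2 = 1 := by rw [be_rec]; simp
  have z1 : ∀ f : Modd, (∀ E, bO.repr f E = 0) → f = 0 := by
    intro f hf
    have : bO.repr f = 0 := Finsupp.ext hf
    simpa using this
  have S0 : S (bO 0) = 0 := z1 _ fun E => by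
    by_contra h
    have := (q3 0).1 E h
    rw [al_zero, be_zero] at this
    omega
  have T0 : T (bO 0) = 0 := z1 _ fun E => by
    by_contra h
    have := (q5 0).1 E h
    rw [al_zero, be_zero] at this
    omega
  have S1 : S (bO 1) = bO 0 := by
    have h1 : bO.repr (S (bO 1)) 0 = 1 := (q3 1).2 0 (by rw [al_zero, al_one])
      (by rw [be_zero, be_one])
    rw [← sub_eq_zero]
    refine z1 _ fun E => ?_
    rw [map_sub, Finsupp.sub_apply, Module.Basis.repr_self, Finsupp.single_apply]
    split_ifs with h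
    · rw [← h, h1, sub_self]
    · rw [sub_zero]
      by_contra h'
      have := (q3 1).1 E h'
      rw [al_one, be_one] at this
      exact h (code_inj (by rw [al_zero]; omega) (by rw [be_zero]; omega))
  have T1 : T (bO 1) = 0 := z1 _ fun E => by
    by_contra h
    have := (q5 1).1 E h
    rw [al_one, be_one] at this
    omega
  have S2 : S (bO 2) = 0 := by
    refine z1 _ fun E => ?_
    by_contra h'
    have := (q3 2).1 E h'
    rw [a2, b2] at this
    have hE : E = 0 := code_inj (by rw [al_zero]; omega) (by rw [be_zero]; omega)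
    rw [hE, repr_op hu hS] at h'
    exact h' h20
  have T2 : T (bO 2) = bO 0 := by
    have h1 : bO.repr (T (bO 2)) 0 = 1 := (q5 2).2 0 (by rw [al_zero, a2])
      (by rw [be_zero, b2])
    rw [← sub_eq_zero]
    refine z1 _ fun E => ?_
    rw [map_sub, Finsupp.sub_apply, Module.Basis.repr_self, Finsupp.single_apply]
    split_ifs with h
    · rw [← h, h1, sub_self]
    · rw [sub_zero]
      by_contra h'
      have := (q5 2).1 E h'
      rw [a2, b2] at this
      exact h (code_inj (by rw [al_zero]; omega) (by rw [be_zero]; omega))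
  have hST := comm_of hS hT
  have pz : ∀ {W : Module.End (ZMod 2) Modd} {f : Modd}, W f = 0 → ∀ n, 1 ≤ n → (W ^ n) f = 0 := by
    intro W f hW n hn
    obtain ⟨m, rfl⟩ : ∃ m, n = m + 1 := ⟨n - 1, by omega⟩
    rw [pow_succ, Module.End.mul_apply, hW, map_zero]
  have n0 : Nil S T (bO 0) 1 := by
    intro i j hij
    rw [Module.End.mul_apply]
    rcases Nat.eq_zero_or_pos j with hj | hj
    · subst hj
      rw [pow_zero, Module.End.one_apply]
      exact pz S0 i (by omega)
    · rw [pz T0 j hj, map_zero]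
  have n1 : Nil S T (bO 1) 2 := by
    intro i j hij
    rw [Module.End.mul_apply]
    rcases Nat.eq_zero_or_pos j with hj | hj
    · subst hj
      obtain ⟨m, rfl⟩ : ∃ m, i = m + 1 := ⟨i - 1, by omega⟩
      rw [pow_zero, Module.End.one_apply, pow_succ, Module.End.mul_apply, S1]
      exact pz S0 m (by omega)
    · rw [pz T1 j hj, map_zero]
  have n2 : Nil S T (bO 2) 2 := by
    intro i j hij
    rw [Module.End.mul_apply]
    rcases Nat.eq_zero_or_pos j with hj | hj
    · subst hj
      rw [pow_zero, Module.End.one_apply]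
      exact pz S2 i (by omega)
    · obtain ⟨m, rfl⟩ : ∃ m, j = m + 1 := ⟨j - 1, by omega⟩
      rw [pow_succ, Module.End.mul_apply, T2]
      rcases Nat.eq_zero_or_pos m with hm | hm
      · subst hm
        rw [pow_zero, Module.End.one_apply]
        exact pz S0 i (by omega)
      · rw [pz T0 m hm, map_zero]
  have e0 : a1 (bO 0) = 1 := by rw [a1_eq, Module.Basis.repr_self, Finsupp.single_apply, if_pos rfl]
  have e1 : a1 (bO 1) = 0 := by
    rw [a1_eq, Module.Basis.repr_self, Finsupp.single_apply, if_neg (by norm_num)]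
  have e2 : a1 (bO 2) = 0 := by
    rw [a1_eq, Module.Basis.repr_self, Finsupp.single_apply, if_neg (by norm_num)]
  refine ⟨?_, ?_, ?_⟩
  · rw [hc _ _ n0]
    simp [e0]
  · rw [hc _ _ n1]
    simp [Finset.sum_range_succ, S1, T1, e0, e1]
  · rw [hc _ _ n2]
    simp [Finset.sum_range_succ, S2, T2, S0, e0, e2]

end

end Vale.Agent.P022.H472.NS
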