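import Vale.Agent.P022.H472.L3.NS7
import Vale.Agent.P022.H30.Near
import Vale.Agent.P022.H30.Rec
import Vale.Agent.P022.H583.Mod

/-!
# Operators on the odd powers of `Δ` modulo two which are `T₃` or `T₅` up to order two
-/

namespace Vale.Agent.P022.H472.NS

open Polynomial Vale.Agent.P022.H30

theorem hu3 (n : ℕ) : ev (H790.A.u3 n) = hec 3 (D ^ n) := H790.A.ev_u3 H583.L3 n

theorem hu5 (n : ℕ) : ev (H790.A.u5 n) = hec 5 (D ^ n) := H790.A.ev_u5 H583.L5 n

theorem u3_five : (H790.A.u3 5).coeff 1 = 0 := H30.w3_two 0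

variable {S T : Module.End (ZMod 2) Modd}
  (hS : ∀ f, ((S f : Modd) : PowerSeries (ZMod 2)) = hecL 3 (f : PowerSeries (ZMod 2)))
  (hT : ∀ f, ((T f : Modd) : PowerSeries (ZMod 2)) = hecL 5 (f : PowerSeries (ZMod 2)))

include hS hT

theorem exists_nil (f : Modd) : ∃ N, Nil S T f N := by
  obtain ⟨g, hg, hf⟩ := exists_ev f.2
  obtain ⟨N, hN⟩ : ∃ N, ∀ n ∈ g.support, cont n < N :=
    ⟨g.support.sup cont + 1, fun n hn => Nat.lt_succ_of_le (Finset.le_sup (f := cont) hn)⟩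
  refine ⟨N, ?_⟩
  have h := nilST hu3 hu5 H790.A.low_u3 H790.A.low_u5 hS hT g hg N hN
  have e : (⟨ev g, ev_mem_Modd hg⟩ : Modd) = f := Subtype.ext hf
  rw [e] at h
  exact h

/-- an operator commuting with `T₃`, `T₅` up to order two -/
theorem near (U : Module.End (ZMod 2) Modd) (h1 : Commute U S) (h2 : Commute U T) (f : Modd) :
    U f - (a1 (U (bO 0)) • f + a1 (U (bO 1)) • S f + a1 (U (bO 2)) • T f) ∈ V S T 2 f := by
  obtain ⟨c, hc⟩ := series_of hu3 hu5 hS hT (fun K => C3_w3 K) (fun K => C5_w5 K) U h1 h2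
  obtain ⟨c0, c1, c2⟩ := series_low hu3 hu5 hS hT (fun K => C3_w3 K) (fun K => C5_w5 K) u3_five
    U c hc
  obtain ⟨N0, hN0⟩ := exists_nil hS hT f
  have hN : Nil S T f (N0 + 2) := fun i j hij => hN0 i j (by omega)
  rw [← c0, ← c1, ← c2, hc f (N0 + 2) hN, ← Finset.sum_product']
  set F : ℕ × ℕ → Modd := fun p => c p.1 p.2 • (S ^ p.1 * T ^ p.2) f with hF
  have hsub : ({(0, 0), (1, 0), (0, 1)} : Finset (ℕ × ℕ)) ⊆
      Finset.range (N0 + 2) ×ˢ Finset.range (N0 + 2) := by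
    intro p hp
    rw [Finset.mem_insert, Finset.mem_insert, Finset.mem_singleton] at hp
    rw [Finset.mem_product, Finset.mem_range, Finset.mem_range]
    rcases hp with rfl | rfl | rfl <;> constructor <;> simp
  have e1 : ∑ p ∈ Finset.range (N0 + 2) ×ˢ Finset.range (N0 + 2), F p =
      ∑ p ∈ (Finset.range (N0 + 2) ×ˢ Finset.range (N0 + 2)) \ {(0, 0), (1, 0), (0, 1)}, F p +
      (c 0 0 • f + c 1 0 • S f + c 0 1 • T f) := by
    rw [← Finset.sum_sdiff hsub, Finset.sum_insert, Finset.sum_insert, Finset.sum_singleton]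
    · simp only [hF, pow_zero, pow_one, one_mul, mul_one, Module.End.one_apply]
      rw [add_assoc (c 0 0 • f)]
    · simp
    · simp
  rw [e1, add_sub_cancel_right]
  refine Submodule.sum_mem _ fun p hp => Submodule.smul_mem _ _ (mem_V ?_ f)
  rw [Finset.mem_sdiff] at hp
  by_contra hlt
  apply hp.2
  have : (p.1 = 0 ∧ p.2 = 0) ∨ (p.1 = 1 ∧ p.2 = 0) ∨ (p.1 = 0 ∧ p.2 = 1) := by omega
  rw [Finset.mem_insert, Finset.mem_insert, Finset.mem_singleton]
  rcases this with h | h | h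
  · exact Or.inl (Prod.ext h.1 h.2)
  · exact Or.inr (Or.inl (Prod.ext h.1 h.2))
  · exact Or.inr (Or.inr (Prod.ext h.1 h.2))

theorem near_three (U : Module.End (ZMod 2) Modd) (h1 : Commute U S) (h2 : Commute U T)
    (e0 : a1 (U (bO 0)) = 0) (e1 : a1 (U (bO 1)) = 1) (e2 : a1 (U (bO 2)) = 0) (f : Modd) :
    U f - S f ∈ V S T 2 f := by
  have h := near hS hT U h1 h2 f
  rwa [e0, e1, e2, zero_smul, one_smul, zero_smul, zero_add, add_zero] at h

theorem near_five (U : Module.End (ZMod 2) Modd) (h1 : Commute U S) (h2 : Commute U T)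
    (e0 : a1 (U (bO 0)) = 0) (e1 : a1 (U (bO 1)) = 0) (e2 : a1 (U (bO 2)) = 1) (f : Modd) :
    U f - T f ∈ V S T 2 f := by
  have h := near hS hT U h1 h2 f
  rwa [e0, e1, e2, zero_smul, one_smul, zero_smul, zero_add, zero_add] at h

end Vale.Agent.P022.H472.NS
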